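import Vale.Agent.P078.Sing.Glue.Reduction
import Vale.Agent.P078.Sf.Bridge
import Vale.Agent.P078.Tr.Final

/-!
# MASAs approximated by semifinite intermediate algebras

If every nonzero normal `A`-central functional `f` on `M` sees every element as a bounded limit, in
the 2-norm of `f`, of elements of semifinite algebras between `A` and `M`, then `A` has so-paving
number `O(ε⁻²)`.
-/

open Filter Topology
open scoped ComplexOrder InnerProductSpace
open Vale.Agent.P078.Sf (lift compress)

noncomputable section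

namespace Vale.Agent.P078.Sing

universe u

variable {H : Type u} [NormedAddCommGroup H] [InnerProductSpace ℂ H] [CompleteSpace H]
  {S : Masa H}

/-- For every nonzero normal central functional, every element is approximated in its 2-norm,
without increase of norm, by elements of semifinite algebras between `A` and `M`. -/
def Approximable (S : Masa H) : Prop :=
  ∀ f : Op H →ₗ[ℂ] ℂ, IsNormalCentral S f → f 1 ≠ 0 → ∀ x ∈ S.M, IsSelfAdjoint x →
    ∀ η : ℝ, 0 < η → ∃ T : Semi.Semifinite H, T.A = S.A ∧ (∀ y ∈ T.M, y ∈ S.M) ∧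
      ∃ x' ∈ T.M, IsSelfAdjoint x' ∧ ‖x'‖ ≤ ‖x‖ ∧ (f ((x - x') * (x - x'))).re ≤ η

/-- The MASA underlying a semifinite inclusion. -/
def ofSemifinite (T : Semi.Semifinite H) : Masa H := ⟨T.M, T.A, T.le, T.comm, T.masa⟩

lemma approximable_semifinite (T : Semi.Semifinite H) : Approximable (ofSemifinite T) :=
  fun f _ _ x hx hxs η hη =>
    ⟨T, rfl, fun _ hy => hy, x, hx, hxs, le_rfl, by simp [sub_self, hη.le]⟩

lemma approximable_of_noNormalCentral (hS : NoNormalCentral S) : Approximable S :=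
  fun f hf h1 => absurd (hS f hf 1 (one_mem _)) h1

omit [CompleteSpace H] in
lemma re_map_smul (f : Op H →ₗ[ℂ] ℂ) (t : ℝ) (a : Op H) : (f (t • a)).re = t * (f a).re := by
  rw [← Complex.coe_smul, map_smul, smul_eq_mul, Complex.re_ofReal_mul]

lemma mul_eq_of_mul_eq' {p q : Op H} (hp : IsStarProjection p) (hq : IsStarProjection q)
    (h : p * q = p) : q * p = p := by
  have := congrArg star h
  rwa [star_mul, hp.isSelfAdjoint.star_eq, hq.isSelfAdjoint.star_eq] at this

/-- Bounded families have weak limits along ultrafilters. -/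
lemma exists_weak_limit {I : Type*} (U : Ultrafilter I) (Z : I → Op H) (hZ : ∀ i, ‖Z i‖ ≤ 1) :
    ∃ L : Op H, ∀ v w, Tendsto (fun i => ⟪v, Z i w⟫_ℂ) U (𝓝 ⟪v, L w⟫_ℂ) := by
  have hex : ∀ v w : H, ∃ l : ℂ, ‖l‖ ≤ 1 * ‖v‖ * ‖w‖ ∧
      Tendsto (fun i => ⟪Z i v, w⟫_ℂ) U (𝓝 l) := by
    intro v w
    obtain ⟨l, hl, hlim⟩ := (isCompact_closedBall (0 : ℂ) (1 * ‖v‖ * ‖w‖)).ultrafilter_le_nhds
      (U.map fun i => ⟪Z i v, w⟫_ℂ)
      (le_principal_iff.2 (mem_map.2 (univ_mem' fun i => mem_closedBall_zero_iff.2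
        ((norm_inner_le_norm _ _).trans (mul_le_mul_of_nonneg_right
          (((Z i).le_opNorm v).trans (mul_le_mul_of_nonneg_right (hZ i) (norm_nonneg _)))
          (norm_nonneg _))))))
    exact ⟨l, mem_closedBall_zero_iff.1 hl, hlim⟩
  choose L hLn hL using hex
  have hu : ∀ {v w : H} {l : ℂ}, Tendsto (fun i => ⟪Z i v, w⟫_ℂ) U (𝓝 l) → L v w = l :=
    fun h => tendsto_nhds_unique (hL _ _) h
  let B := LinearMap.mkContinuous₂ (LinearMap.mk₂'ₛₗ (starRingEnd ℂ) (RingHom.id ℂ) L
    (fun v v' w => hu (((hL v w).add (hL v' w)).congr fun i => by rw [map_add, inner_add_left]))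
    (fun c v w => hu (((hL v w).const_mul (starRingEnd ℂ c)).congr fun i => by
      rw [map_smul, inner_smul_left]))
    (fun v w w' => hu (((hL v w).add (hL v w')).congr fun i => by rw [inner_add_right]))
    (fun c v w => hu (((hL v w).const_mul c).congr fun i => by rw [inner_smul_right])))
    1 hLn
  refine ⟨InnerProductSpace.continuousLinearMapOfBilin B, fun v w => ?_⟩
  rw [← inner_conj_symm v, InnerProductSpace.continuousLinearMapOfBilin_apply]
  exact ((Complex.continuous_conj.tendsto _).comp (hL w v)).congr fun i => inner_conj_symm v _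

/-- On a corner where a normal central functional is faithful, smallness in its 2-norm forces
smallness at each vector, uniformly on bounded sets. -/
theorem exists_small {f : Op H →ₗ[ℂ] ℂ} (hf : IsNormalCentral S f) {e : Op H}
    (hfaith : ∀ y ∈ S.M, y * e = y → f (star y * y) = 0 → y = 0)
    (F : Finset H) {δ : ℝ} (hδ : 0 < δ) :
    ∃ η : ℝ, 0 < η ∧ ∀ y ∈ S.M, y * e = y → ‖y‖ ≤ 1 → (f (star y * y)).re ≤ η →
      ∀ v ∈ F, ‖y v‖ < δ := by
  classical
  suffices h : ∀ v, ∃ η : ℝ, 0 < η ∧ ∀ y ∈ S.M, y * e = y → ‖y‖ ≤ 1 →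
      (f (star y * y)).re ≤ η → ‖y v‖ < δ by
    choose η hη0 hη using h
    refine ⟨(insert (1 : ℝ) (F.image η)).min' (Finset.insert_nonempty _ _), ?_,
      fun y hy hye hy1 hfy v hv => hη v y hy hye hy1 (hfy.trans
        (Finset.min'_le _ _ (Finset.mem_insert_of_mem (Finset.mem_image_of_mem _ hv))))⟩
    rw [Finset.lt_min'_iff]
    simp only [Finset.mem_insert, Finset.mem_image]
    rintro t (rfl | ⟨v, -, rfl⟩)
    · exact one_pos
    · exact hη0 v
  intro v
  by_contra hcon
  push Not at hcon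
  choose y hy hye hy1 hfy hyv using fun n : ℕ => hcon (1 / ((n : ℝ) + 1)) (by positivity)
  set Z : ℕ → Op H := fun n => star (y n) * y n
  have hZM : ∀ n, Z n ∈ S.M := fun n => mul_mem (star_mem (hy n)) (hy n)
  have hZ1 : ∀ n, ‖Z n‖ ≤ 1 := fun n => by
    simp only [Z, CStarRing.norm_star_mul_self]
    exact mul_le_one₀ (hy1 n) (norm_nonneg _) (hy1 n)
  set U := Ultrafilter.of (atTop : Filter ℕ)
  obtain ⟨L, hL⟩ := exists_weak_limit U Z hZ1
  have hcomm : ∀ b : Op H, (∀ n, Commute b (Z n)) → Commute b L := fun b hb => by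
    refine ContinuousLinearMap.ext fun w => ext_inner_left ℂ fun u => ?_
    rw [mul_apply_eq_comp, mul_apply_eq_comp, ← ContinuousLinearMap.adjoint_inner_left]
    refine tendsto_nhds_unique (hL _ _) ((hL u (b w)).congr fun n => ?_)
    rw [ContinuousLinearMap.adjoint_inner_left, ← mul_apply_eq_comp, ← (hb n).eq,
      mul_apply_eq_comp]
  have hLM : L ∈ S.M := S.mem_M_iff.2 fun b hb =>
    (hcomm b fun n => S.commute_of_mem (hZM n) hb).eq
  have hL0 : 0 ≤ L := by
    rw [ContinuousLinearMap.nonneg_iff_isPositive, ContinuousLinearMap.isPositive_iff_complex]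
    intro w
    have h : (0 : ℂ) ≤ ⟪w, L w⟫_ℂ := by
      refine ge_of_tendsto' (hL w w) fun n => ?_
      exact ((ContinuousLinearMap.nonneg_iff_isPositive _).1
        (star_mul_self_nonneg (y n))).inner_nonneg_right w
    have h2 := Complex.nonneg_iff.1 h
    rw [show ⟪L w, w⟫_ℂ = ⟪w, L w⟫_ℂ by
      rw [← inner_conj_symm (L w) w, Complex.conj_eq_iff_im.2 h2.2.symm]]
    exact ⟨Complex.ext (by simp) (by simpa using h2.2), by simpa using h2.1⟩
  have hL1 : ‖L‖ ≤ 1 := by
    refine ContinuousLinearMap.opNorm_le_bound _ zero_le_one fun w => ?_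
    have h1 : ‖⟪L w, L w⟫_ℂ‖ ≤ ‖L w‖ * ‖w‖ :=
      le_of_tendsto' (hL (L w) w).norm fun n => (norm_inner_le_norm _ _).trans
        (mul_le_mul_of_nonneg_left (((Z n).le_opNorm w).trans
          (mul_le_of_le_one_left (norm_nonneg _) (hZ1 n))) (norm_nonneg _))
    rw [inner_self_eq_norm_sq_to_K] at h1
    simp only [Complex.coe_algebraMap, norm_pow, Complex.norm_real, norm_norm] at h1
    rw [one_mul]
    nlinarith [norm_nonneg (L w), norm_nonneg w]
  have hLe : L * (1 - e) = 0 := by
    refine ContinuousLinearMap.ext fun w => ext_inner_left ℂ fun u => ?_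
    rw [mul_apply_eq_comp, zero_apply, inner_zero_right]
    refine tendsto_nhds_unique (hL _ _) (tendsto_const_nhds.congr fun n => ?_)
    rw [← mul_apply_eq_comp, mul_sub, mul_one, mul_assoc, hye n, sub_self, zero_apply,
      inner_zero_right]
  have hfL : (f L).re = 0 := by
    refine le_antisymm (le_of_forall_pos_le_add fun ε hε => ?_)
      (Complex.nonneg_iff.1 (hf.nonneg hLM hL0)).1
    obtain ⟨G, γ, hγ, hG⟩ := hf.normal (ε / 4) (by positivity)
    set B := ∑ w ∈ G, ((‖L w‖ + ‖w‖) ^ 2 + 1)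
    obtain ⟨m₀, hm₀⟩ := exists_nat_gt (B / γ ^ 2)
    set m := m₀ + 1
    have key : ∀ k : ℕ, ∃ W ∈ S.M, ‖W‖ ≤ k ∧ (f W).re ≤ k * (ε / 4) ∧
        ∀ w ∈ G, ‖W w - k • L w‖ ^ 2 ≤ k * ((‖L w‖ + ‖w‖) ^ 2 + 1) := by
      intro k
      induction k with
      | zero => exact ⟨0, zero_mem _, by simp, by simp, by simp⟩
      | succ k ih =>
        obtain ⟨W, hWM, hW1, hWf, hWG⟩ := ih
        have hx : ∀ w ∈ G, ∀ᶠ n in (U : Filter ℕ),
            2 * RCLike.re ⟪W w - k • L w, Z n w - L w⟫_ℂ < 1 := fun w _ => by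
          have h := ((Complex.continuous_re.tendsto _).comp
            ((hL (W w - k • L w) w).sub_const ⟪W w - k • L w, L w⟫_ℂ)).const_mul 2
          simp only [Function.comp_def, sub_self, Complex.zero_re, mul_zero] at h
          filter_upwards [h.eventually_lt_const zero_lt_one] with n hn
          rw [inner_sub_right]
          exact hn
        have hsmall : ∀ᶠ n : ℕ in (U : Filter ℕ), 1 / ((n : ℝ) + 1) < ε / 4 :=
          Ultrafilter.of_le _ ((tendsto_one_div_add_atTop_nhds_zero_nat (𝕜 := ℝ)).eventually_lt_const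
            (show (0 : ℝ) < ε / 4 by positivity))
        obtain ⟨n, hn, hn'⟩ := (hsmall.and ((Finset.eventually_all G).2 hx)).exists
        refine ⟨W + Z n, add_mem hWM (hZM n), ?_, ?_, fun w hw => ?_⟩
        · push_cast
          exact (norm_add_le _ _).trans (add_le_add hW1 (hZ1 n))
        · rw [map_add, Complex.add_re]
          push_cast
          have := (hfy n).trans hn.le
          simp only [Z]
          linarith
        · have e1 : (W + Z n) w - (k + 1) • L w = (W w - k • L w) + (Z n w - L w) := by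
            rw [add_apply, add_smul, one_smul]
            abel
          rw [e1, norm_add_sq (𝕜 := ℂ)]
          have h5 : ‖Z n w - L w‖ ^ 2 ≤ (‖L w‖ + ‖w‖) ^ 2 := by
            refine pow_le_pow_left₀ (norm_nonneg _) ((norm_sub_le _ _).trans ?_) 2
            have := ((Z n).le_opNorm w).trans (mul_le_mul_of_nonneg_right (hZ1 n) (norm_nonneg _))
            linarith
          push_cast
          linarith [hn' w hw, hWG w hw]
    obtain ⟨W, hWM, hW1, hWf, hWG⟩ := key m
    have hm : (0 : ℝ) < m := by positivity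
    have hmB : B < γ ^ 2 * m := by
      rw [div_lt_iff₀ (by positivity)] at hm₀
      simp only [m]
      push_cast
      nlinarith [sq_nonneg γ]
    set D : Op H := (1 / (2 * (m : ℝ))) • (W - (m : ℝ) • L)
    have hD : ‖D‖ ≤ 1 := by
      simp only [D, norm_smul]
      rw [Real.norm_of_nonneg (by positivity)]
      refine (mul_le_mul_of_nonneg_left (norm_sub_le _ _) (by positivity)).trans ?_
      rw [norm_smul, Real.norm_of_nonneg hm.le, div_mul_eq_mul_div, one_mul,
        div_le_one (by positivity)]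
      nlinarith [norm_nonneg L]
    have h6 := hG D (smul_mem_M _ (sub_mem hWM (smul_mem_M _ hLM))) hD fun w hw => ?_
    · have h7 := (Complex.abs_re_le_norm _).trans h6
      rw [re_map_smul f, map_sub, Complex.sub_re, re_map_smul f] at h7
      have h8 := (abs_le.1 h7).1
      rw [div_mul_eq_mul_div, one_mul, le_div_iff₀ (by positivity)] at h8
      nlinarith
    · have h8 : ‖W w - m • L w‖ ^ 2 < γ ^ 2 * m ^ 2 := by
        refine (hWG w hw).trans_lt ?_
        have := Finset.single_le_sum (f := fun w => (‖L w‖ + ‖w‖) ^ 2 + 1)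
          (fun w _ => by positivity) hw
        nlinarith
      rw [show D w = (1 / (2 * (m : ℝ))) • (W w - m • L w) by
        simp [D, Nat.cast_smul_eq_nsmul], norm_smul, Real.norm_of_nonneg (by positivity),
        div_mul_eq_mul_div, one_mul, div_lt_iff₀ (by positivity)]
      rw [← mul_pow, sq_lt_sq₀ (norm_nonneg _) (by positivity)] at h8
      nlinarith
  have hL' : L = 0 := by
    obtain ⟨t, htM, hts, rfl⟩ := S.exists_sqrt hLM hL0
    have hte : t * (1 - e) = 0 := by
      refine (CStarRing.star_mul_self_eq_zero_iff _).1 ?_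
      rw [star_mul, hts.star_eq, mul_assoc, ← mul_assoc t t, hLe, mul_zero]
    rw [mul_sub, mul_one, sub_eq_zero] at hte
    rw [hfaith t htM hte.symm (by rw [hts.star_eq]; exact hf.eq_zero_of_re hLM hL0 hfL), mul_zero]
  have h9 : δ ^ 2 ≤ 0 := by
    have h := (Complex.continuous_re.tendsto _).comp (hL v v)
    rw [hL', zero_apply, inner_zero_right, Complex.zero_re] at h
    refine ge_of_tendsto' h fun n => ?_
    have : RCLike.re ⟪v, Z n v⟫_ℂ = ‖y n v‖ ^ 2 := re_inner_star_mul (y n) v
    simp only [Function.comp_apply]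
    exact (pow_le_pow_left₀ hδ.le (hyv n) 2).trans (le_of_eq this.symm)
  nlinarith

/-- Paving inside the corner of a faithful normal central functional. -/
theorem pave_corner {C : ℝ}
    (hC : ∀ (H : Type u) [NormedAddCommGroup H] [InnerProductSpace ℂ H] [CompleteSpace H]
      (T : Semi.Semifinite H) (x : Op H) (ε : ℝ), x ∈ T.M → IsSelfAdjoint x → 0 < ε → ε < 1 →
        ∀ r : ℕ, C / ε ^ 2 ≤ r → Semi.SoPavable T x ε r)
    (hS : Approximable S) {e : Op H} (he : e ∈ S.A) (hep : IsStarProjection e)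
    (hfaith : HasFaithful S e) {x : Op H} (hx : x ∈ S.M) (hxs : IsSelfAdjoint x)
    {ε : ℝ} (hε : 0 < ε) (hε1 : ε < 1) {r : ℕ} (hr : C / (ε / 2) ^ 2 ≤ r) (hr0 : 0 < r)
    (F : Finset H) {δ : ℝ} (hδ : 0 < δ) :
    ∃ (p : Fin r → Op H) (a q : Op H),
      (∀ i, p i ∈ S.A ∧ IsStarProjection (p i)) ∧ (∀ i j, i ≠ j → p i * p j = 0) ∧ ∑ i, p i = 1 ∧
      a ∈ S.A ∧ IsSelfAdjoint a ∧ ‖a‖ ≤ ‖x‖ ∧ q ∈ S.M ∧ IsStarProjection q ∧ q * e = q ∧
      (∀ v ∈ F, ‖(e - q) v‖ < δ) ∧
      ‖q * (∑ i, p i * x * p i - a) * q‖ ≤ ε * ‖x‖ := by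
  classical
  by_cases hdeg : e = 0 ∨ x = 0
  · refine ⟨fun i => if i = ⟨0, hr0⟩ then 1 else 0, 0, e,
      fun i => by dsimp only; split <;> simp [IsStarProjection.one, IsStarProjection.zero, one_mem, zero_mem],
      fun i j hij => by dsimp only; split_ifs with h1 h2 <;> simp_all,
      (Finset.sum_eq_single (⟨0, hr0⟩ : Fin r) (fun i _ hi => if_neg hi)
        (fun h => absurd (Finset.mem_univ _) h)).trans (if_pos rfl), zero_mem _,
      IsSelfAdjoint.zero _, by simp, S.le e he, hep, hep.isIdempotentElem.eq,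
      fun v _ => by simpa using hδ, ?_⟩
    rcases hdeg with rfl | rfl <;> simp
    positivity
  push Not at hdeg
  set X := ‖x‖
  have hX : 0 < X := norm_pos_iff.2 hdeg.2
  obtain ⟨f, hf, hff⟩ := hfaith
  obtain ⟨g, hg, hgf⟩ := hf.cutDown he hep
  have heM : e ∈ S.M := S.le e he
  have hg1 : g 1 ≠ 0 := fun h => hdeg.1 (hff e heM hep.isIdempotentElem.eq (by
    rw [hep.isSelfAdjoint.star_eq, hep.isIdempotentElem.eq]
    simpa [hgf, hep.isIdempotentElem.eq] using h))
  set F' := F.image e
  set κ := δ / (2 * (1 + 8 / ε)) with hκ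
  have hκ0 : 0 < κ := by positivity
  set t₂ := ε / 4 * X with ht2
  have ht20 : 0 < t₂ := by positivity
  set δ₂ := δ * t₂ / 4 with hδ2
  have hδ20 : 0 < δ₂ := by positivity
  obtain ⟨η, hη, hηv⟩ := exists_small hf hff F' (δ := δ₂ / (2 * X)) (by positivity)
  obtain ⟨T, hTA, hTM, x', hx', hx's, hx'n, hgd⟩ :=
    hS g hg hg1 x hx hxs (η * (2 * X) ^ 2) (by positivity)
  set θ := ε / 32 with hθ
  have hθ0 : 0 < θ := by positivity
  obtain ⟨p, a, q, hp, hpo, hps, ha, has, han, hqM, hq, hqF, hqn⟩ :=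
    hC H T x' (ε / 2) hx' hx's (by positivity) (by linarith) r hr F' (κ * θ ^ 2) (by positivity)
  have hpA : ∀ i, p i ∈ S.A := fun i => hTA ▸ (hp i).1
  let P : Part S := ⟨r, p, hpA, fun i => (hp i).2, hpo, hps⟩
  have haA : a ∈ S.A := hTA ▸ ha
  have hqM' : q ∈ S.M := hTM q hqM
  set d := x - x' with hd
  have hdM : d ∈ S.M := sub_mem hx (hTM x' hx')
  have hds : IsSelfAdjoint d := hxs.sub hx's
  have hdn : ‖d‖ ≤ 2 * X := (norm_sub_le _ _).trans (by linarith)
  set R := P.pinch d with hRdef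
  have hRM : R ∈ S.M := P.pinch_mem hdM
  have hRs : IsSelfAdjoint R := by rw [IsSelfAdjoint, ← P.pinch_star, hds.star_eq]
  have hRn : ‖R‖ ≤ 2 * X := (P.norm_pinch_le d).trans hdn
  set R₀ := P.pinch x' - a with hR0def
  have hR0n : ‖R₀‖ ≤ 2 * X := (norm_sub_le _ _).trans
    (by linarith [P.norm_pinch_le x'])
  -- the pinched error is small in the 2-norm of `g`
  have hRR : (g (R * R)).re ≤ η * (2 * X) ^ 2 := by
    refine le_trans ?_ hgd
    have hle : R * R ≤ ∑ i, p i * (d * d) * p i := by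
      have e1 : R * R = ∑ i, p i * d * p i * d * p i := by
        rw [hRdef, Part.pinch, Finset.sum_mul_sum]
        refine Finset.sum_congr rfl fun i _ => ?_
        rw [Finset.sum_eq_single i (fun j _ hj => ?_) (fun h => absurd (Finset.mem_univ i) h)]
        · show p i * d * p i * (p i * d * p i) = _
          rw [show p i * d * p i * (p i * d * p i) = p i * d * (p i * p i) * d * p i by
            simp only [mul_assoc], (hp i).2.isIdempotentElem.eq]
        · show p i * d * p i * (p j * d * p j) = 0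
          rw [mul_assoc (p i * d), ← mul_assoc (p i), ← mul_assoc (p i), hpo i j (Ne.symm hj),
            zero_mul, zero_mul, mul_zero]
      rw [e1]
      refine Finset.sum_le_sum fun i _ => ?_
      have := star_left_conjugate_le_conjugate (hp i).2.le_one (d * p i)
      simpa only [star_mul, hds.star_eq, (hp i).2.isSelfAdjoint.star_eq, mul_one, mul_assoc]
        using this
    have hdd : d * d ∈ S.M := mul_mem hdM hdM
    have hmem : ∀ i, p i * (d * d) * p i ∈ S.M := fun i =>
      mul_mem (mul_mem (S.le _ (hpA i)) hdd) (S.le _ (hpA i))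
    refine (hg.re_mono (mul_mem hRM hRM) (sum_mem fun i _ => hmem i) hle).trans (le_of_eq ?_)
    rw [map_sum, Finset.sum_congr rfl fun i _ =>
      show g (p i * (d * d) * p i) = g (d * d * p i) by
        rw [mul_assoc (p i), hg.central _ (hpA i) _ (mul_mem hdd (S.le _ (hpA i))),
          mul_assoc (d * d), (hp i).2.isIdempotentElem.eq], ← map_sum, ← Finset.mul_sum, hps,
      mul_one]
  have hsmall : ∀ v ∈ F', ‖(e * R * e) v‖ < δ₂ := by
    intro v hv
    set y := (1 / (2 * X)) • (e * R * e) with hy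
    have hyM : y ∈ S.M := smul_mem_M _ (mul_mem (mul_mem heM hRM) heM)
    have hye : y * e = y := by
      rw [hy, smul_mul_assoc, mul_assoc (e * R), hep.isIdempotentElem.eq]
    have hy1 : ‖y‖ ≤ 1 := by
      rw [hy, norm_smul, Real.norm_of_nonneg (by positivity), div_mul_eq_mul_div, one_mul,
        div_le_one (by positivity)]
      refine (norm_mul_le _ _).trans ((mul_le_of_le_one_right (norm_nonneg _) hep.norm_le).trans ?_)
      exact ((norm_mul_le _ _).trans (mul_le_of_le_one_left (norm_nonneg _) hep.norm_le)).trans hRn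
    have hfy : (f (star y * y)).re ≤ η := by
      have e2 : star y * y = (1 / (2 * X) * (1 / (2 * X))) • (e * (R * e * R) * e) := by
        rw [hy, star_smul, star_trivial, smul_mul_smul_comm, star_mul, star_mul,
          hRs.star_eq, hep.isSelfAdjoint.star_eq,
          show e * (R * e) * (e * R * e) = e * (R * (e * e) * R) * e by simp only [mul_assoc],
          hep.isIdempotentElem.eq]
      have hle : R * e * R ≤ R * R := by
        have := star_left_conjugate_le_conjugate hep.le_one R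
        rwa [hRs.star_eq, mul_one] at this
      rw [e2, re_map_smul f, ← hgf]
      refine (mul_le_mul_of_nonneg_left
        ((hg.re_mono (mul_mem (mul_mem hRM heM) hRM) (mul_mem hRM hRM) hle).trans hRR)
        (by positivity)).trans (le_of_eq ?_)
      field_simp
    have := hηv y hyM hye hy1 hfy v hv
    rw [hy, smul_apply, norm_smul, Real.norm_of_nonneg (by positivity), div_mul_eq_mul_div,
      one_mul, div_lt_div_iff₀ (by positivity) (by positivity)] at this
    exact lt_of_mul_lt_mul_right this (by positivity)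
  -- the projections
  obtain ⟨q₁, hq1M, hq1, hq1n, hq1e, hq1v⟩ := exists_good_proj heM hep
    (R := 1 - q) (sub_mem (one_mem _) hqM') hq.one_sub.isSelfAdjoint (t := θ ^ 2) (by positivity)
  obtain ⟨q₂, hq2M, hq2, hq2n, hq21, hq2v⟩ :=
    exists_good_proj hq1M hq1 hRM hRs ht20
  have hq2e : q₂ * e = q₂ := by rw [← hq21, mul_assoc, hq1e]
  have heq1 : e * q₁ = q₁ := by
    have := congrArg star hq1e
    rwa [star_mul, hq1.isSelfAdjoint.star_eq, hep.isSelfAdjoint.star_eq] at this
  have hq1q : ‖(1 - q) * q₁‖ ≤ θ := by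
    refine (sq_le_sq₀ (norm_nonneg _) hθ0.le).1 (le_trans (le_of_eq ?_) hq1n)
    rw [sq, ← CStarRing.norm_star_mul_self, star_mul, hq1.isSelfAdjoint.star_eq,
      hq.one_sub.isSelfAdjoint.star_eq, ← mul_assoc, mul_assoc q₁, hq.one_sub.isIdempotentElem.eq]
  have hv' : ∀ v ∈ F', ‖(1 - q₁) v‖ ≤ κ ∧ e v = v := by
    intro v hv
    obtain ⟨w, -, rfl⟩ := Finset.mem_image.1 hv
    have hee : e (e w) = e w := DFunLike.congr_fun hep.isIdempotentElem.eq w
    refine ⟨(hq1v _).trans ?_, hee⟩
    rw [show (1 - e) (e w) = 0 by rw [sub_apply, one_apply_eq_self, hee, sub_self], norm_zero,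
      zero_add, div_le_iff₀ (by positivity), mul_apply_eq_comp, mul_apply_eq_comp, hee]
    exact (e.le_opNorm _).trans ((mul_le_of_le_one_left (norm_nonneg _) hep.norm_le).trans
      (hqF _ hv).le)
  refine ⟨p, a, q₂, fun i => ⟨hpA i, (hp i).2⟩, hpo, hps, haA, has, han.trans hx'n, hq2M, hq2, hq2e,
    fun w hw => ?_, ?_⟩
  · have hv : e w ∈ F' := Finset.mem_image_of_mem _ hw
    obtain ⟨h1, hee⟩ := hv' _ hv
    rw [show (e - q₂) w = (1 - q₂) (e w) by
      rw [← mul_apply_eq_comp, sub_mul, one_mul, hq2e]]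
    refine lt_of_le_of_lt (hq2v _) ?_
    have h2 : ‖(q₁ * R * q₁) (e w)‖ ≤ ‖(e * R * e) (e w)‖ + 2 * X * ‖(1 - q₁) (e w)‖ := by
      have e3 : (q₁ * R * q₁) (e w) =
          q₁ ((e * R * e) (e w)) - (q₁ * R) ((1 - q₁) (e w)) := by
        rw [← mul_apply_eq_comp q₁ (e * R * e), ← mul_assoc, ← mul_assoc, hq1e,
          mul_apply_eq_comp (q₁ * R) e, hee, sub_apply, map_sub, one_apply_eq_self,
          ← mul_apply_eq_comp (q₁ * R) q₁, sub_sub_cancel]
      rw [e3]
      refine (norm_sub_le _ _).trans (add_le_add ((q₁.le_opNorm _).trans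
        (mul_le_of_le_one_left (norm_nonneg _) hq1.norm_le)) (((q₁ * R).le_opNorm _).trans ?_))
      exact mul_le_mul_of_nonneg_right ((norm_mul_le _ _).trans
        ((mul_le_of_le_one_left (norm_nonneg _) hq1.norm_le).trans hRn)) (norm_nonneg _)
    have h3 := hsmall _ hv
    have h4 : ‖(q₁ * R * q₁) (e w)‖ / t₂ < δ / 4 + 8 / ε * κ := by
      rw [div_lt_iff₀ ht20]
      have : (δ / 4 + 8 / ε * κ) * t₂ = δ₂ + 2 * X * κ := by
        rw [hδ2, ht2]; field_simp; ring
      rw [this]
      nlinarith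
    have h5 : κ + 8 / ε * κ = δ / 2 := by rw [hκ]; field_simp
    linarith
  · show ‖q₂ * (P.pinch x - a) * q₂‖ ≤ _
    rw [show P.pinch x - a = R₀ + R by
      rw [hR0def, hRdef, hd]
      simp only [Part.pinch, mul_sub, sub_mul, Finset.sum_sub_distrib]
      abel, mul_add, add_mul]
    have h1 : ‖q₁ * R₀ * q₁‖ ≤ ε / 2 * X + 4 * θ * X := by
      have h1' : ‖q₁ * (1 - q)‖ ≤ θ := by
        rw [← norm_star, star_mul, hq1.isSelfAdjoint.star_eq, hq.one_sub.isSelfAdjoint.star_eq]
        exact hq1q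
      rw [show q₁ * R₀ * q₁ = q₁ * (q * R₀ * q) * q₁ + (q₁ * (1 - q)) * R₀ * q₁ +
          q₁ * (q * R₀) * ((1 - q) * q₁) by
        simp only [sub_mul, mul_sub, one_mul, mul_one, mul_assoc]; abel]
      refine norm_add₃_le.trans ?_
      have k1 : ‖q₁ * (q * R₀ * q) * q₁‖ ≤ ε / 2 * X :=
        (norm_mul_le _ _).trans ((mul_le_of_le_one_right (norm_nonneg _) hq1.norm_le).trans
          ((norm_mul_le _ _).trans ((mul_le_of_le_one_left (norm_nonneg _) hq1.norm_le).trans
            (hqn.trans (mul_le_mul_of_nonneg_left hx'n (by positivity))))))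
      have k2 : ‖q₁ * (1 - q) * R₀ * q₁‖ ≤ θ * (2 * X) :=
        (norm_mul_le _ _).trans ((mul_le_of_le_one_right (norm_nonneg _) hq1.norm_le).trans
          ((norm_mul_le _ _).trans (mul_le_mul h1' hR0n (norm_nonneg _) hθ0.le)))
      have k3 : ‖q₁ * (q * R₀) * ((1 - q) * q₁)‖ ≤ 2 * X * θ :=
        (norm_mul_le _ _).trans (mul_le_mul ((norm_mul_le _ _).trans
          ((mul_le_of_le_one_left (norm_nonneg _) hq1.norm_le).trans ((norm_mul_le _ _).trans
            ((mul_le_of_le_one_left (norm_nonneg _) hq.norm_le).trans hR0n)))) hq1q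
          (norm_nonneg _) (by positivity))
      linarith
    have h2 : ‖q₂ * R₀ * q₂‖ ≤ ‖q₁ * R₀ * q₁‖ := by
      have h12 : q₁ * q₂ = q₂ := mul_eq_of_mul_eq' hq2 hq1 hq21
      rw [show q₂ * R₀ * q₂ = q₂ * q₁ * R₀ * (q₁ * q₂) by rw [hq21, h12],
        show q₂ * q₁ * R₀ * (q₁ * q₂) = q₂ * (q₁ * R₀ * q₁) * q₂ by simp only [mul_assoc]]
      exact (norm_mul_le _ _).trans ((mul_le_of_le_one_right (norm_nonneg _) hq2.norm_le).trans
        ((norm_mul_le _ _).trans (mul_le_of_le_one_left (norm_nonneg _) hq2.norm_le)))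
    refine (norm_add_le _ _).trans ((add_le_add (h2.trans h1) hq2n).trans ?_)
    rw [hθ, ht2]
    nlinarith

/-- `n ≤ C ε⁻²` for every approximable MASA. -/
theorem approximable_paving : ∃ C : ℝ, ∀ (H : Type u) [NormedAddCommGroup H]
    [InnerProductSpace ℂ H] [CompleteSpace H] (S : Masa H) (x : Op H) (ε : ℝ), Approximable S →
    x ∈ S.M → IsSelfAdjoint x → 0 < ε → ε < 1 → ∀ r : ℕ, C / ε ^ 2 ≤ r → SoPavable S x ε r := by
  obtain ⟨C, hC⟩ := Sf.standard_semifinite_of_tracial.{u} Tr.tracial_paving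
  refine ⟨max 32 (64 * C), fun H _ _ _ S x ε hS hx hxs hε hε1 r hr => ?_⟩
  refine soPavable_of_corners S hx hxs hε hε1 (le_trans (by gcongr; exact le_max_left _ _) hr)
    fun e he hep hfaith => ?_
  have hr0 : 0 < r := by
    have : (0 : ℝ) < r := lt_of_lt_of_le (by positivity) hr
    exact_mod_cast this
  have hr' : C / (ε / 4 / 2) ^ 2 ≤ r := by
    refine le_trans ?_ hr
    rw [div_div, div_pow, div_div_eq_mul_div]
    gcongr
    refine le_trans (le_of_eq ?_) (le_max_right _ _)
    ring
  classical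
  set K := fixSpace e
  have hKe : K.starProjection = e := starProjection_fixSpace hep
  have hK : K.starProjection ∈ S.A := fixSpace_mem he hep
  set c := compress K x
  have hcs : IsSelfAdjoint c := by rw [IsSelfAdjoint, ← Sf.compress_star, hxs.star_eq]
  have hy : lift K c = e * x * e := by rw [Sf.lift_compress, hKe]
  intro F δ hδ
  obtain ⟨p, a, q, hp, hpo, hps, ha, has, han, hqM, hq, hqe, hqF, hqn⟩ :=
    pave_corner hC hS he hep hfaith (x := lift K c) (hy ▸ mul_mem (mul_mem (S.le e he) hx) (S.le e he))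
      (by rw [IsSelfAdjoint, ← Sf.lift_star, hcs.star_eq]) (ε := ε / 4) (by positivity)
      (by linarith) hr' hr0 (F.image fun v : K => (v : H)) hδ
  have hcn : ‖lift K c‖ ≤ ‖c‖ := Sf.norm_lift_le K c
  have heq : e * q = q := mul_eq_of_mul_eq' hq hep hqe
  have hlp : ∀ i, lift K (compress K (p i)) = e * p i := fun i => by
    rw [Sf.lift_compress, hKe, mul_assoc, S.comm _ (hp i).1 e he, ← mul_assoc,
      hep.isIdempotentElem.eq]
  have hla : lift K (compress K a) = e * a := by
    rw [Sf.lift_compress, hKe, mul_assoc, S.comm _ ha e he, ← mul_assoc, hep.isIdempotentElem.eq]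
  have hlq : lift K (compress K q) = q := by rw [Sf.lift_compress, hKe, heq, hqe]
  refine ⟨fun i => compress K (p i), compress K a, compress K q, fun i => ⟨?_, ?_, ?_⟩,
    fun i j hij => ?_, ?_, ?_, ?_, ?_, S.corner_compress_mem K hK hqM, ⟨?_, ?_⟩, fun v hv => ?_, ?_⟩
  · show lift K (compress K (p i)) ∈ S.A
    rw [hlp]; exact mul_mem he (hp i).1
  · exact Sf.lift_injective K (by
      rw [Sf.lift_mul, hlp, mul_assoc, ← mul_assoc (p i), ← S.comm e he (p i) (hp i).1,
        mul_assoc e (p i), (hp i).2.isIdempotentElem.eq, ← mul_assoc, hep.isIdempotentElem.eq])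
  · rw [IsSelfAdjoint, ← Sf.compress_star, (hp i).2.isSelfAdjoint.star_eq]
  · refine Sf.lift_injective K ?_
    rw [Sf.lift_mul, hlp, hlp, Sf.lift_zero, mul_assoc, ← mul_assoc (p i),
      ← S.comm e he (p i) (hp i).1, mul_assoc e (p i), hpo i j hij, mul_zero, mul_zero]
  · rw [← compress_sum, hps, compress_one]
  · show lift K (compress K a) ∈ S.A
    rw [hla]; exact mul_mem he ha
  · rw [IsSelfAdjoint, ← Sf.compress_star, has.star_eq]
  · exact (Sf.norm_compress_le K a).trans (han.trans hcn)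
  · exact Sf.lift_injective K (by rw [Sf.lift_mul, hlq, hq.isIdempotentElem.eq])
  · rw [IsSelfAdjoint, ← Sf.compress_star, hq.isSelfAdjoint.star_eq]
  · refine lt_of_eq_of_lt ?_ (hqF v (Finset.mem_image_of_mem _ hv))
    rw [show e - q = lift K (1 - compress K q) by rw [Sf.lift_sub, Sf.lift_one, hKe, hlq],
      Sf.lift_apply, Sf.proj_coe]
    rfl
  · rw [← compress_lift K (_ * _)]
    refine (Sf.norm_compress_le K _).trans ?_
    conv_lhs => rw [show c = compress K (lift K c) from (compress_lift K c).symm]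
    rw [lift_block, hlq, hla]
    simp only [hlp]
    have e1 : q * (∑ i, e * p i * lift K c * (e * p i) - e * a) * q =
        q * (∑ i, p i * lift K c * p i - a) * q := by
      rw [mul_sub, mul_sub, ← mul_assoc q e, hqe, Finset.mul_sum, Finset.mul_sum]
      congr 2
      refine Finset.sum_congr rfl fun i _ => ?_
      rw [show q * (e * p i * lift K c * (e * p i)) = q * e * p i * (lift K c * e) * p i by
        simp only [mul_assoc], hqe, show lift K c * e = lift K c by
          rw [hy, mul_assoc, hep.isIdempotentElem.eq]]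
      simp only [mul_assoc]
    rw [e1]
    exact hqn.trans (mul_le_mul_of_nonneg_left hcn (by positivity))

end Vale.Agent.P078.Sing
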