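import Vale.Agent.P078.Sing.Limits
import Vale.Agent.P078.Colour

/-!
# Random levels and random colours
-/

open Filter Topology
open scoped ComplexOrder InnerProductSpace

noncomputable section

namespace Vale.Agent.P078.Sing

universe u

variable {V : Type*} [NormedAddCommGroup V] [InnerProductSpace ℂ V]

/-- The second moment of a sum of independent centred terms. -/
lemma sum_norm_sq_indep {ι : Type*} [Fintype ι] :
    ∀ (n : ℕ) (z : Fin n → ι → V), (∀ K, ∑ j, z K j = 0) →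
      (Fintype.card ι : ℝ) * ∑ J : Fin n → ι, ‖∑ K, z K (J K)‖ ^ 2 =
        (Fintype.card (Fin n → ι) : ℝ) * ∑ K, ∑ j, ‖z K j‖ ^ 2 := by
  intro n
  induction n with
  | zero => intro z _; simp
  | succ n ih =>
    intro z hz
    have h := ih (fun K => z K.succ) fun K => hz K.succ
    rw [← (Fin.consEquiv fun _ : Fin (n + 1) => ι).sum_comp, Fintype.sum_prod_type]
    simp only [Fin.consEquiv_apply, Fin.sum_univ_succ, Fin.cons_zero, Fin.cons_succ]
    have e : ∀ (j : ι) (J : Fin n → ι), ‖z 0 j + ∑ K : Fin n, z K.succ (J K)‖ ^ 2 =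
        ‖z 0 j‖ ^ 2 + 2 * RCLike.re ⟪z 0 j, ∑ K : Fin n, z K.succ (J K)⟫_ℂ +
          ‖∑ K : Fin n, z K.succ (J K)‖ ^ 2 := fun j J => norm_add_sq (𝕜 := ℂ) _ _
    simp only [e, Finset.sum_add_distrib, Finset.sum_const, Finset.card_univ, nsmul_eq_mul]
    rw [Finset.sum_comm (f := fun (j : ι) (J : Fin n → ι) => 2 * RCLike.re ⟪z 0 j, ∑ K : Fin n, z K.succ (J K)⟫_ℂ)]
    simp only [← Finset.mul_sum, ← map_sum, ← sum_inner, hz 0, inner_zero_left, map_zero, mul_zero,
      Finset.sum_const_zero, add_zero, Fintype.card_fun, Fintype.card_fin, pow_succ, Nat.cast_mul,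
      Nat.cast_pow] at h ⊢
    linear_combination (Fintype.card ι : ℝ) * h

/-- Some choice of the levels is no worse than the mean. -/
lemma exists_levels {ι κ : Type*} [Fintype ι] [Fintype κ] [Nonempty ι] {n : ℕ}
    (z : κ → Fin n → ι → V) {M : ℝ}
    (hM : ∀ j, ∑ i, ∑ K, ‖z i K j‖ ^ 2 ≤ M) :
    ∃ J : Fin n → ι, ∑ i, ‖∑ K, (z i K (J K) - (Fintype.card ι : ℝ)⁻¹ • ∑ j, z i K j)‖ ^ 2 ≤ M := by
  set N : ℝ := (Fintype.card ι : ℝ)
  have hN : 0 < N := by positivity
  set d : κ → Fin n → ι → V := fun i K j => z i K j - N⁻¹ • ∑ j, z i K j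
  have hd : ∀ i K, ∑ j, d i K j = 0 := fun i K => by
    simp only [d, Finset.sum_sub_distrib, Finset.sum_const, Finset.card_univ]
    rw [← Nat.cast_smul_eq_nsmul ℝ, smul_smul, mul_inv_cancel₀ hN.ne', one_smul, sub_self]
  have hle : ∀ i K, ∑ j, ‖d i K j‖ ^ 2 ≤ ∑ j, ‖z i K j‖ ^ 2 := fun i K => by
    set c : V := N⁻¹ • ∑ j, z i K j
    have e : ∀ j, ‖z i K j‖ ^ 2 = ‖d i K j‖ ^ 2 + 2 * RCLike.re ⟪d i K j, c⟫_ℂ + ‖c‖ ^ 2 :=
      fun j => by rw [← norm_add_sq (𝕜 := ℂ)]; simp [d, c]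
    simp only [e, Finset.sum_add_distrib, ← Finset.mul_sum, ← map_sum, ← sum_inner, hd,
      inner_zero_left, map_zero, mul_zero, add_zero, Finset.sum_const, nsmul_eq_mul,
      Finset.card_univ]
    nlinarith [sq_nonneg ‖c‖, (Nat.cast_nonneg (α := ℝ) (Fintype.card ι))]
  have key : ∑ J : Fin n → ι, ∑ i, ‖∑ K, d i K (J K)‖ ^ 2 ≤
      Fintype.card (Fin n → ι) • M := by
    rw [Finset.sum_comm, nsmul_eq_mul]
    refine le_of_mul_le_mul_left ?_ hN
    rw [Finset.mul_sum, Finset.sum_congr rfl fun i _ => sum_norm_sq_indep n (d i) (hd i),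
      ← Finset.mul_sum, mul_left_comm N]
    refine mul_le_mul_of_nonneg_left ?_ (Nat.cast_nonneg _)
    refine (Finset.sum_le_sum fun i _ => Finset.sum_le_sum fun K _ => hle i K).trans ?_
    rw [Finset.sum_congr rfl fun i (_ : i ∈ Finset.univ) => Finset.sum_comm, Finset.sum_comm]
    exact (Finset.sum_le_card_nsmul _ _ M fun j _ => hM j).trans (le_of_eq (by simp [N]))
  obtain ⟨J, -, hJ⟩ := Finset.exists_le_of_sum_le (f := fun J : Fin n → ι =>
    ∑ i, ‖∑ K, d i K (J K)‖ ^ 2) (g := fun _ => M) Finset.univ_nonempty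
    (by simpa [Finset.sum_const] using key)
  exact ⟨J, hJ⟩

/-- Second moment of the centred coincidences, for vectors. -/
lemma exists_colours {κ : Type*} [Fintype κ] {n r : ℕ} [NeZero r]
    (z : κ → Fin n × Fin n → V) :
    ∃ col : Fin n → Fin r, ∑ i, ‖∑ p, coin col p • z i p‖ ^ 2 ≤ 2 * ∑ i, ∑ p, ‖z i p‖ ^ 2 := by
  set N : ℝ := (Fintype.card (Fin n → Fin r) : ℝ)
  have hG : ∀ p q, |∑ col : Fin n → Fin r, coin col p * coin col q| ≤ N := fun p q => by
    refine (Finset.abs_sum_le_sum_abs _ _).trans ?_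
    refine (Finset.sum_le_card_nsmul _ _ 1 fun col _ => ?_).trans (by simp [N])
    rw [abs_mul]
    exact mul_le_one₀ (abs_coin_le col p) (abs_nonneg _) (abs_coin_le col q)
  have one : ∀ i, ∑ col : Fin n → Fin r, ‖∑ p, coin col p • z i p‖ ^ 2 ≤
      2 * N * ∑ p, ‖z i p‖ ^ 2 := by
    intro i
    set w := z i
    have hterm : ∀ p q, RCLike.re ⟪w p, w q⟫_ℂ * ∑ col : Fin n → Fin r, coin col p * coin col q ≤
        (if q = p then N * ‖w p‖ ^ 2 else 0) +
          (if q = p.swap then N * ((‖w p‖ ^ 2 + ‖w p.swap‖ ^ 2) / 2) else 0) := by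
      intro p q
      have hN : 0 ≤ N := Nat.cast_nonneg _
      have hnn : 0 ≤ N * ((‖w p‖ ^ 2 + ‖w p.swap‖ ^ 2) / 2) := by positivity
      by_cases h1 : q = p
      · subst h1
        rw [inner_self_eq_norm_sq, if_pos rfl]
        split <;> nlinarith [(abs_le.1 (hG q q)).2, sq_nonneg ‖w q‖]
      by_cases h2 : q = p.swap
      · subst h2
        rw [if_neg h1, if_pos rfl, zero_add]
        refine (le_abs_self _).trans ?_
        rw [abs_mul]
        refine (mul_le_mul_of_nonneg_left (hG _ _) (abs_nonneg _)).trans ?_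
        rw [mul_comm N]
        refine mul_le_mul_of_nonneg_right ((RCLike.abs_re_le_norm _).trans
          ((norm_inner_le_norm _ _).trans ?_)) hN
        nlinarith [sq_nonneg (‖w p‖ - ‖w p.swap‖)]
      rw [if_neg h1, if_neg h2, sum_coin_mul_eq_zero h1 h2, mul_zero, zero_add]
    have e : ∑ col : Fin n → Fin r, ‖∑ p, coin col p • w p‖ ^ 2 =
        ∑ p, ∑ q, RCLike.re ⟪w p, w q⟫_ℂ * ∑ col : Fin n → Fin r, coin col p * coin col q := by
      have e1 : ∀ col : Fin n → Fin r, ‖∑ p, coin col p • w p‖ ^ 2 =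
          ∑ p, ∑ q, RCLike.re ⟪w p, w q⟫_ℂ * (coin col p * coin col q) := fun col => by
        rw [← inner_self_eq_norm_sq (𝕜 := ℂ), sum_inner, map_sum]
        refine Finset.sum_congr rfl fun p _ => ?_
        rw [inner_sum, map_sum]
        refine Finset.sum_congr rfl fun q _ => ?_
        rw [← Complex.coe_smul, ← Complex.coe_smul, inner_smul_left, inner_smul_right,
          Complex.conj_ofReal, ← mul_assoc, ← Complex.ofReal_mul]
        exact (Complex.re_ofReal_mul _ _).trans (mul_comm _ _)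
      simp only [e1]
      rw [Finset.sum_comm]
      refine Finset.sum_congr rfl fun p _ => ?_
      rw [Finset.sum_comm]
      exact Finset.sum_congr rfl fun q _ => (Finset.mul_sum _ _ _).symm
    rw [e]
    refine (Finset.sum_le_sum fun p _ => Finset.sum_le_sum fun q _ => hterm p q).trans (le_of_eq ?_)
    simp only [Finset.sum_add_distrib, Finset.sum_ite_eq', Finset.mem_univ, if_true]
    have hsw : ∑ p : Fin n × Fin n, ‖w p.swap‖ ^ 2 = ∑ p, ‖w p‖ ^ 2 :=
      Equiv.sum_comp (Equiv.prodComm _ _) (fun p : Fin n × Fin n => ‖w p‖ ^ 2)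
    rw [← Finset.mul_sum, ← Finset.mul_sum, ← Finset.sum_div, Finset.sum_add_distrib, hsw]
    ring
  obtain ⟨col, -, h⟩ := Finset.exists_le_of_sum_le
    (f := fun col : Fin n → Fin r => ∑ i, ‖∑ p, coin col p • z i p‖ ^ 2)
    (g := fun _ => 2 * ∑ i, ∑ p, ‖z i p‖ ^ 2) Finset.univ_nonempty (by
      rw [Finset.sum_comm, Finset.sum_const, nsmul_eq_mul, Finset.card_univ]
      refine (Finset.sum_le_sum fun i _ => one i).trans (le_of_eq ?_)
      rw [← Finset.mul_sum]
      ring)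
  exact ⟨col, h⟩

variable {H : Type u} [NormedAddCommGroup H] [InnerProductSpace ℂ H] [CompleteSpace H]
  {S : Masa H}

namespace Part

/-- The cells: the pieces of `P (J K)` inside the `K`-th piece of `P₀`. -/
def cells (P₀ : Part S) {m : ℕ} (P : Fin m → Part S) (J : Fin P₀.n → Fin m) : Part S where
  n := Fintype.card (Σ K : Fin P₀.n, Fin (P (J K)).n)
  p i := P₀.p ((Fintype.equivFin (Σ K : Fin P₀.n, Fin (P (J K)).n)).symm i).1 *
    (P (J ((Fintype.equivFin (Σ K : Fin P₀.n, Fin (P (J K)).n)).symm i).1)).p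
      ((Fintype.equivFin (Σ K : Fin P₀.n, Fin (P (J K)).n)).symm i).2
  mem _ := mul_mem (P₀.mem _) ((P _).mem _)
  proj _ := (P₀.proj _).mul ((P _).proj _) (P₀.comm_A _ ((P _).mem _))
  orth i j hij := by
    have hne := (Fintype.equivFin (Σ K : Fin P₀.n, Fin (P (J K)).n)).symm.injective.ne hij
    generalize (Fintype.equivFin (Σ K : Fin P₀.n, Fin (P (J K)).n)).symm i = a at hne ⊢
    generalize (Fintype.equivFin (Σ K : Fin P₀.n, Fin (P (J K)).n)).symm j = b at hne ⊢
    obtain ⟨K, a⟩ := a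
    obtain ⟨L, b⟩ := b
    dsimp only
    rw [mul_assoc, ← mul_assoc ((P (J K)).p a), (P (J K)).comm_A _ (P₀.mem L), mul_assoc,
      ← mul_assoc]
    by_cases h : K = L
    · subst h
      rw [(P (J K)).orth a b fun h => hne (h ▸ rfl), mul_zero]
    · rw [P₀.orth K L h, zero_mul]
  sum_eq := by
    rw [(Fintype.equivFin (Σ K : Fin P₀.n, Fin (P (J K)).n)).symm.sum_comp
      (fun i => P₀.p i.1 * (P (J i.1)).p i.2), Fintype.sum_sigma]
    simp only [← Finset.mul_sum, (P _).sum_eq, mul_one, P₀.sum_eq]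

lemma sum_cells (P₀ : Part S) {m : ℕ} (P : Fin m → Part S) (J : Fin P₀.n → Fin m) {β : Type*}
    [AddCommMonoid β] (g : Op H → β) :
    ∑ i, g ((cells P₀ P J).p i) = ∑ K, ∑ a, g (P₀.p K * (P (J K)).p a) := by
  exact ((Fintype.equivFin (Σ K : Fin P₀.n, Fin (P (J K)).n)).symm.sum_comp
    (fun i => g (P₀.p i.1 * (P (J i.1)).p i.2))).trans (Fintype.sum_sigma _)

lemma cells_pinch (P₀ : Part S) {m : ℕ} (P : Fin m → Part S) (hP : ∀ j, (P j).Refines P₀)
    (J : Fin P₀.n → Fin m) (x : Op H) :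
    (cells P₀ P J).pinch x = ∑ K, P₀.p K * (P (J K)).pinch x := by
  rw [pinch, sum_cells P₀ P J (fun c => c * x * c)]
  refine Finset.sum_congr rfl fun K _ => ?_
  have e : P₀.p K * (P (J K)).pinch x = P₀.p K * (P (J K)).pinch x * P₀.p K := by
    conv_lhs => rw [← (hP (J K)).pinch_coarse x, P₀.p_mul_pinch]
  rw [e, pinch, Finset.mul_sum, Finset.sum_mul]
  refine Finset.sum_congr rfl fun a _ => ?_
  have hc := P₀.comm_A K ((P (J K)).mem a)
  calc P₀.p K * (P (J K)).p a * x * (P₀.p K * (P (J K)).p a)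
      = P₀.p K * (P (J K)).p a * x * ((P (J K)).p a * P₀.p K) := by rw [hc]
    _ = _ := by simp only [mul_assoc]

/-- A nonnegative quantity of the cells is at most its total over all levels. -/
lemma sum_cells_le (P₀ : Part S) {m : ℕ} (P : Fin m → Part S) (hP : ∀ j, (P j).Refines P₀)
    (J : Fin P₀.n → Fin m) (g : Op H → ℝ) (hg : ∀ c, 0 ≤ g c) (hg0 : g 0 = 0) :
    ∑ i, g ((cells P₀ P J).p i) ≤ ∑ j, ∑ a, g ((P j).p a) := by
  rw [sum_cells]
  refine (Finset.sum_le_sum fun K _ => Finset.single_le_sum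
    (f := fun j => ∑ a, g (P₀.p K * (P j).p a)) (fun j _ => Finset.sum_nonneg fun a _ => hg _)
    (Finset.mem_univ (J K))).trans (le_of_eq ?_)
  rw [Finset.sum_comm]
  refine Finset.sum_congr rfl fun j _ => ?_
  rw [Finset.sum_comm]
  refine Finset.sum_congr rfl fun a _ => ?_
  obtain ⟨K, hK⟩ := hP j a
  rw [Finset.sum_eq_single K (fun L _ hL => ?_) (by simp), hK]
  rw [← hK, ← mul_assoc, P₀.orth L K hL, zero_mul, hg0]

/-- The partition into colours. -/
def byColour (Q : Part S) {r : ℕ} (col : Fin Q.n → Fin r) : Part S where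
  n := r
  p c := ∑ i ∈ Finset.univ.filter (fun i => col i = c), Q.p i
  mem _ := sum_mem fun i _ => Q.mem i
  proj c := by
    refine ⟨?_, ?_⟩
    · show (∑ i ∈ _, Q.p i) * (∑ i ∈ _, Q.p i) = _
      rw [Finset.sum_mul]
      refine Finset.sum_congr rfl fun i hi => ?_
      rw [Finset.mul_sum, Finset.sum_eq_single i (fun j _ hj => Q.orth i j (Ne.symm hj))
        (fun h => absurd hi h), Q.mul_self]
    · rw [IsSelfAdjoint, star_sum]
      exact Finset.sum_congr rfl fun i _ => Q.star_p i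
  orth c d hcd := by
    rw [Finset.sum_mul]
    refine Finset.sum_eq_zero fun i hi => ?_
    rw [Finset.mul_sum]
    refine Finset.sum_eq_zero fun j hj => Q.orth i j fun h => hcd ?_
    rw [← (Finset.mem_filter.1 hi).2, ← (Finset.mem_filter.1 hj).2, h]
  sum_eq := by rw [Finset.sum_fiberwise, Q.sum_eq]

/-- A colour pinching is the mean plus centred coincidences. -/
lemma byColour_pinch (Q : Part S) {r : ℕ} [NeZero r] (col : Fin Q.n → Fin r) (x : Op H) :
    (Q.byColour col).pinch x = (1 / (r : ℝ)) • x + (1 - 1 / (r : ℝ)) • Q.pinch x +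
      ∑ p, coin col p • (Q.p p.1 * x * Q.p p.2) := by
  have hx : ∑ p : Fin Q.n × Fin Q.n, Q.p p.1 * x * Q.p p.2 = x := by
    rw [Fintype.sum_prod_type]
    simp only [← Finset.mul_sum, ← Finset.sum_mul, Q.sum_eq, one_mul, mul_one]
  have hd : Q.pinch x = ∑ p : Fin Q.n × Fin Q.n,
      (if p.1 = p.2 then (1 : ℝ) else 0) • (Q.p p.1 * x * Q.p p.2) := by
    rw [Fintype.sum_prod_type, pinch]
    simp [ite_smul, Finset.sum_ite_eq]
  have hl : (Q.byColour col).pinch x = ∑ p : Fin Q.n × Fin Q.n,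
      (if col p.1 = col p.2 then (1 : ℝ) else 0) • (Q.p p.1 * x * Q.p p.2) := by
    rw [Fintype.sum_prod_type, pinch]
    simp only [byColour, Finset.sum_mul, Finset.mul_sum, ite_smul, one_smul, zero_smul]
    rw [← Finset.sum_fiberwise Finset.univ col]
    refine Finset.sum_congr rfl fun c _ => ?_
    rw [Finset.sum_comm]
    refine Finset.sum_congr rfl fun i hi => ?_
    rw [← (Finset.mem_filter.1 hi).2, Finset.sum_filter]
    exact Finset.sum_congr rfl fun j _ => by simp only [eq_comm]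
  rw [hl, hd]
  conv_rhs => enter [1, 1]; rw [← hx]
  simp only [Finset.smul_sum, smul_smul, ← Finset.sum_add_distrib, ← add_smul]
  refine Finset.sum_congr rfl fun p _ => ?_
  congr 1
  unfold coin
  by_cases h : p.1 = p.2
  · simp [h]
  · simp [h]

end Part

/-- The colour partition. -/
theorem exists_colour_part (P₀ : Part S) {m : ℕ} [NeZero m] (P : Fin m → Part S)
    (hP : ∀ j, (P j).Refines P₀) {q : Op H} (hq : IsStarProjection q) {x : Op H} {ι : Type*}
    [Fintype ι] (u : ι → H) {η : ℝ} (hcell : ∀ j, (cellFun x u P₀ (P j) q).re < η)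
    (hpair : ∀ j l, (pairFun x u (P j) (P l) q).re < η) (r : ℕ) [NeZero r] :
    ∃ R : Part S, R.n = r ∧ ∀ i, ∀ T : Op H,
      ‖q ((R.pinch x - (1 / (r : ℝ)) • x - (1 - 1 / (r : ℝ)) • T) (u i))‖ ≤
        Real.sqrt η + (m : ℝ)⁻¹ * ‖q‖ * ‖∑ j, ((P j).pinch x (u i) - T (u i))‖ +
          Real.sqrt (2 * (m * m * η)) := by
  classical
  set z : ι → Fin P₀.n → Fin m → H := fun i K j => q (P₀.p K ((P j).pinch x (u i)))
  obtain ⟨J, hJ⟩ := exists_levels z (M := η) fun j => by
    refine le_trans (le_of_eq ?_) (hcell j).le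
    rw [cellFun, vecFun_proj _ hq, Fintype.sum_prod_type]
    rfl
  rw [Fintype.card_fin] at hJ
  set Q := Part.cells P₀ P J
  obtain ⟨col, hcol⟩ := exists_colours (r := r)
    (fun i (p : Fin Q.n × Fin Q.n) => q (Q.p p.1 (x (Q.p p.2 (u i)))))
  have hpairs : ∑ i, ∑ p : Fin Q.n × Fin Q.n, ‖q (Q.p p.1 (x (Q.p p.2 (u i))))‖ ^ 2 ≤
      m * m * η := by
    simp only [Fintype.sum_prod_type]
    calc ∑ i, ∑ a, ∑ b, ‖q (Q.p a (x (Q.p b (u i))))‖ ^ 2
        ≤ ∑ i, ∑ a, ∑ l, ∑ b, ‖q (Q.p a (x ((P l).p b (u i))))‖ ^ 2 :=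
          Finset.sum_le_sum fun i _ => Finset.sum_le_sum fun a _ =>
            Part.sum_cells_le P₀ P hP J (fun c => ‖q (Q.p a (x (c (u i))))‖ ^ 2)
              (fun c => sq_nonneg _) (by simp)
      _ ≤ ∑ i, ∑ j, ∑ a, ∑ l, ∑ b, ‖q ((P j).p a (x ((P l).p b (u i))))‖ ^ 2 :=
          Finset.sum_le_sum fun i _ =>
            Part.sum_cells_le P₀ P hP J (fun c => ∑ l, ∑ b, ‖q (c (x ((P l).p b (u i))))‖ ^ 2)
              (fun c => Finset.sum_nonneg fun l _ => Finset.sum_nonneg fun b _ => sq_nonneg _)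
              (by simp)
      _ = ∑ j, ∑ l, (pairFun x u (P j) (P l) q).re := by
          simp only [pairFun, vecFun_proj _ hq, Fintype.sum_prod_type, pairVec]
          rw [Finset.sum_comm]
          refine Finset.sum_congr rfl fun j _ => ?_
          conv_rhs => rw [Finset.sum_comm]
          refine Finset.sum_congr rfl fun i _ => ?_
          rw [Finset.sum_comm]
      _ ≤ ∑ j : Fin m, ∑ l : Fin m, η :=
          Finset.sum_le_sum fun j _ => Finset.sum_le_sum fun l _ => (hpair j l).le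
      _ = m * m * η := by simp [mul_assoc]
  refine ⟨Q.byColour col, rfl, fun i T => ?_⟩
  set c := 1 - 1 / (r : ℝ) with hc
  have hr : (1 : ℝ) ≤ r := by exact_mod_cast NeZero.one_le
  have hc0 : 0 ≤ c := by rw [hc, sub_nonneg, div_le_one (by linarith)]; exact hr
  have hc1 : c ≤ 1 := by rw [hc]; linarith [show (0 : ℝ) ≤ 1 / r by positivity]
  set avg : H := (m : ℝ)⁻¹ • ∑ j, ((P j).pinch x (u i) - T (u i))
  set D : H := ∑ K, (z i K (J K) - (m : ℝ)⁻¹ • ∑ j, z i K j)
  have hD : q (Q.pinch x (u i) - T (u i)) = D + q avg := by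
    have hm : (m : ℝ) ≠ 0 := by exact_mod_cast NeZero.ne m
    have e1 : ∑ K, (m : ℝ)⁻¹ • ∑ j, z i K j = q ((m : ℝ)⁻¹ • ∑ j, (P j).pinch x (u i)) := by
      rw [← Finset.smul_sum, Finset.sum_comm, ← Complex.coe_smul, ← Complex.coe_smul, map_smul,
        map_sum]
      congr 1
      refine Finset.sum_congr rfl fun j _ => ?_
      simp only [z, ← map_sum]
      rw [← sum_apply, P₀.sum_eq, one_apply_eq_self]
    have e2 : ∑ K, z i K (J K) = q (Q.pinch x (u i)) := by
      rw [Part.cells_pinch P₀ P hP J x, sum_apply, map_sum]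
      rfl
    simp only [D, Finset.sum_sub_distrib, e1, e2, avg]
    rw [smul_sub, Finset.sum_const, Finset.card_univ, Fintype.card_fin, ← Nat.cast_smul_eq_nsmul ℝ,
      smul_smul, inv_mul_cancel₀ hm, one_smul, map_sub, map_sub]
    abel
  have hDn : ‖D‖ ≤ Real.sqrt η := Real.le_sqrt_of_sq_le <| le_trans
    (Finset.single_le_sum (f := fun i => ‖∑ K, (z i K (J K) - (m : ℝ)⁻¹ • ∑ j, z i K j)‖ ^ 2)
      (fun i _ => sq_nonneg _) (Finset.mem_univ i)) hJ
  have havg : ‖q avg‖ ≤ (m : ℝ)⁻¹ * ‖q‖ * ‖∑ j, ((P j).pinch x (u i) - T (u i))‖ := by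
    refine (q.le_opNorm _).trans (le_of_eq ?_)
    rw [norm_smul, Real.norm_of_nonneg (by positivity)]
    ring
  have hO : ‖∑ p : Fin Q.n × Fin Q.n, coin col p • q (Q.p p.1 (x (Q.p p.2 (u i))))‖ ≤
      Real.sqrt (2 * (m * m * η)) := by
    refine Real.le_sqrt_of_sq_le (le_trans (le_trans (Finset.single_le_sum
      (f := fun i => ‖∑ p : Fin Q.n × Fin Q.n, coin col p • q (Q.p p.1 (x (Q.p p.2 (u i))))‖ ^ 2)
      (fun i _ => sq_nonneg _) (Finset.mem_univ i)) hcol) ?_)
    linarith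
  have e : q (((Q.byColour col).pinch x - (1 / (r : ℝ)) • x - c • T) (u i)) =
      c • (D + q avg) + ∑ p : Fin Q.n × Fin Q.n, coin col p • q (Q.p p.1 (x (Q.p p.2 (u i)))) := by
    rw [← hD, Q.byColour_pinch col x, show (1 / (r : ℝ)) • x + (1 - 1 / (r : ℝ)) • Q.pinch x +
      (∑ p, coin col p • (Q.p p.1 * x * Q.p p.2)) - (1 / (r : ℝ)) • x - c • T =
      c • (Q.pinch x - T) + ∑ p, coin col p • (Q.p p.1 * x * Q.p p.2) by
        rw [smul_sub, hc]; abel]
    rw [add_apply, map_add, smul_apply, sub_apply, sum_apply, map_sum, ← Complex.coe_smul, map_smul,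
      ← Complex.coe_smul]
    congr 1
    refine Finset.sum_congr rfl fun p _ => ?_
    rw [smul_apply, ← Complex.coe_smul, map_smul, ← Complex.coe_smul]
    rfl
  rw [e]
  refine (norm_add_le _ _).trans (add_le_add ?_ hO)
  rw [norm_smul, Real.norm_of_nonneg hc0]
  exact (mul_le_of_le_one_left (norm_nonneg _) hc1).trans
    ((norm_add_le _ _).trans (add_le_add hDn havg))

end Vale.Agent.P078.Sing
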