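import Mathlib

/-!
# MASAs without normal central functionals

`NoNormalCentral S`: every positive linear functional on `M` which is `A`-central and normal, that
is strongly continuous on the unit ball, vanishes on `M`.
-/

open scoped ComplexOrder InnerProductSpace

noncomputable section

namespace Vale.Agent.P078.Sing

universe u

/-- Bounded operators on `H`. -/
abbrev Op (H : Type u) [NormedAddCommGroup H] [InnerProductSpace ℂ H] := H →L[ℂ] H

/-- A maximal abelian `*`-subalgebra `A` of a von Neumann algebra `M`. -/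
structure Masa (H : Type u) [NormedAddCommGroup H] [InnerProductSpace ℂ H] [CompleteSpace H] where
  /-- The von Neumann algebra. -/
  M : VonNeumannAlgebra H
  /-- The MASA. -/
  A : StarSubalgebra ℂ (Op H)
  le : ∀ a ∈ A, a ∈ M
  comm : ∀ a ∈ A, ∀ b ∈ A, a * b = b * a
  masa : ∀ x ∈ M, (∀ a ∈ A, x * a = a * x) → x ∈ A

variable {H : Type u} [NormedAddCommGroup H] [InnerProductSpace ℂ H] [CompleteSpace H]

/-- `f` restricts to a positive normal functional on `M` with `A` in its centralizer. -/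
structure IsNormalCentral (S : Masa H) (f : Op H →ₗ[ℂ] ℂ) : Prop where
  pos : ∀ y ∈ S.M, 0 ≤ f (star y * y)
  central : ∀ a ∈ S.A, ∀ y ∈ S.M, f (a * y) = f (y * a)
  normal : ∀ ε : ℝ, 0 < ε → ∃ (F : Finset H) (δ : ℝ), 0 < δ ∧
    ∀ y ∈ S.M, ‖y‖ ≤ 1 → (∀ v ∈ F, ‖y v‖ < δ) → ‖f y‖ ≤ ε

/-- No nonzero normal positive functional on `M` has `A` in its centralizer. -/
def NoNormalCentral (S : Masa H) : Prop :=
  ∀ f : Op H →ₗ[ℂ] ℂ, IsNormalCentral S f → ∀ y ∈ S.M, f y = 0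

/-- `x` is `(ε, r)` so-pavable over `A` inside `M`. -/
def SoPavable (S : Masa H) (x : Op H) (ε : ℝ) (r : ℕ) : Prop :=
  ∀ (F : Finset H) (δ : ℝ), 0 < δ →
    ∃ (p : Fin r → Op H) (a q : Op H),
      (∀ i, p i ∈ S.A ∧ IsStarProjection (p i)) ∧ (∀ i j, i ≠ j → p i * p j = 0) ∧ ∑ i, p i = 1 ∧
      a ∈ S.A ∧ IsSelfAdjoint a ∧ ‖a‖ ≤ ‖x‖ ∧ q ∈ S.M ∧ IsStarProjection q ∧
      (∀ v ∈ F, ‖(1 - q) v‖ < δ) ∧
      ‖q * (∑ i, p i * x * p i - a) * q‖ ≤ ε * ‖x‖

/-- `n ≤ C ε⁻¹` for every MASA without normal central functionals. -/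
def SingularPavingStatement : Prop :=
  ∃ C : ℝ, ∀ (H : Type u) [NormedAddCommGroup H] [InnerProductSpace ℂ H] [CompleteSpace H]
    (S : Masa H) (x : Op H) (ε : ℝ), NoNormalCentral S → x ∈ S.M → IsSelfAdjoint x →
    0 < ε → ε < 1 → ∀ r : ℕ, C / ε ≤ r → SoPavable S x ε r

end Vale.Agent.P078.Sing
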