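import Vale.Agent.P078.Sing.Normal

/-!
# A central functional is killed by projections close to `1`
-/

open Filter Topology
open scoped ComplexOrder InnerProductSpace
open Vale.Agent.P078.Tr (cut hinge)

noncomputable section

namespace Vale.Agent.P078.Sing

universe u

variable {H : Type u} [NormedAddCommGroup H] [InnerProductSpace ℂ H] [CompleteSpace H]
  {S : Masa H}

/-- A directed family of projections of `M` has a supremum, approached at every vector. -/
theorem exists_sup (P : Set (Op H)) (hne : P.Nonempty) (hP : ∀ p ∈ P, p ∈ S.M ∧ IsStarProjection p)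
    (hdir : ∀ p ∈ P, ∀ q ∈ P, ∃ r ∈ P, r * p = p ∧ r * q = q) :
    ∃ s ∈ S.M, IsStarProjection s ∧ (∀ p ∈ P, s * p = p) ∧
      (∀ e : Op H, (∀ p ∈ P, e * p = p) → e * s = s) ∧
      ∀ (F : Finset H) (δ : ℝ), 0 < δ → ∃ p ∈ P, ∀ v ∈ F, ‖(s - p) v‖ < δ := by
  classical
  have : Nonempty P := hne.to_subtype
  set R : Submodule ℂ H := ⨆ p : P, p.1.range with hR
  set K := R.topologicalClosure
  set s := K.starProjection
  have hs : IsStarProjection s := isStarProjection_starProjection
  have hsp : ∀ p ∈ P, s * p = p := fun p hp => ContinuousLinearMap.ext fun v =>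
    Submodule.starProjection_eq_self_iff.2 (Submodule.le_topologicalClosure _
      (Submodule.mem_iSup_of_mem ⟨p, hp⟩ (LinearMap.mem_range_self (p : H →ₗ[ℂ] H) v)))
  have hdir' : Directed (· ≤ ·) fun p : P => p.1.range := fun p q => by
    obtain ⟨r, hr, h1, h2⟩ := hdir p.1 p.2 q.1 q.2
    refine ⟨⟨r, hr⟩, ?_, ?_⟩
    · rintro _ ⟨v, rfl⟩; exact ⟨p.1 v, DFunLike.congr_fun h1 v⟩
    · rintro _ ⟨v, rfl⟩; exact ⟨q.1 v, DFunLike.congr_fun h2 v⟩
  refine ⟨s, S.mem_M_iff.2 fun y hy => ?_, hs, hsp, fun e he => ?_, fun F δ hδ => ?_⟩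
  · have hinv : ∀ c ∈ S.M.commutant, s * c * s = c * s := fun c hc =>
      ContinuousLinearMap.ext fun v => Submodule.starProjection_eq_self_iff.2 (by
        have h : R ≤ K.comap (c : H →ₗ[ℂ] H) := by
          refine iSup_le fun p => ?_
          rintro _ ⟨w, rfl⟩
          refine Submodule.le_topologicalClosure _ (Submodule.mem_iSup_of_mem p ?_)
          exact ⟨c w, (DFunLike.congr_fun (S.commute_of_mem (hP p.1 p.2).1 hc).eq w).symm⟩
        exact Submodule.topologicalClosure_minimal _ h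
          (IsClosed.preimage c.continuous (Submodule.isClosed_topologicalClosure _))
          (Submodule.starProjection_apply_mem _ v))
    have h := congrArg star (hinv _ (star_mem hy))
    rw [star_mul, star_mul, star_mul, star_star, hs.isSelfAdjoint.star_eq, ← mul_assoc] at h
    exact (hinv y hy).symm.trans h
  · refine ContinuousLinearMap.ext fun v => ?_
    show e (s v) = s v
    have h : R ≤ (e - 1 : Op H).ker := by
      refine iSup_le fun p => ?_
      rintro _ ⟨w, rfl⟩
      have := DFunLike.congr_fun (he p.1 p.2) w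
      simp only [LinearMap.mem_ker, ContinuousLinearMap.coe_coe, sub_apply, one_apply_eq_self,
        mul_apply_eq_comp] at this ⊢
      rw [this, sub_self]
    have := Submodule.topologicalClosure_minimal _ h (e - 1 : Op H).isClosed_ker
      (Submodule.starProjection_apply_mem K v)
    simp only [LinearMap.mem_ker, ContinuousLinearMap.coe_coe, sub_apply, one_apply_eq_self,
      sub_eq_zero] at this
    exact this
  · have hone : ∀ v : H, ∃ p : P, ‖(s - p.1) v‖ < δ := fun v => by
      have hv : s v ∈ closure (R : Set H) := by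
        rw [← Submodule.topologicalClosure_coe]
        exact Submodule.starProjection_apply_mem _ v
      obtain ⟨w, hw, hvw⟩ := Metric.mem_closure_iff.1 hv δ hδ
      obtain ⟨p, w', rfl⟩ := (Submodule.mem_iSup_of_directed _ hdir').1 hw
      refine ⟨p, lt_of_le_of_lt ?_ hvw⟩
      have hp := hP p.1 p.2
      have hps : p.1 * s = p.1 := by
        have := congrArg star (hsp p.1 p.2)
        rwa [star_mul, hs.isSelfAdjoint.star_eq, hp.2.isSelfAdjoint.star_eq] at this
      have hx : (s - p.1) v = (1 - p.1) (s v - p.1 w') := by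
        rw [show (1 - p.1) (s v - p.1 w') =
          ((1 - p.1) * s) v - ((1 - p.1) * p.1) w' from map_sub _ _ _, sub_mul, sub_mul, one_mul,
          one_mul, hp.2.isIdempotentElem.eq, sub_self, zero_apply, sub_zero, hps]
      rw [hx, dist_eq_norm]
      exact ((1 - p.1).le_opNorm _).trans
        (mul_le_of_le_one_left (norm_nonneg _) hp.2.one_sub.norm_le)
    choose g hg using hone
    obtain ⟨r, hr⟩ := hdir'.finset_le (F.image g)
    refine ⟨r.1, r.2, fun v hv => lt_of_le_of_lt ?_ (hg v)⟩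
    have hrp := hP r.1 r.2
    have hrg : r.1 * (g v).1 = (g v).1 := ContinuousLinearMap.ext fun w => by
      obtain ⟨w', hw'⟩ := hr (g v) (Finset.mem_image_of_mem g hv) (LinearMap.mem_range_self _ w)
      show r.1 ((g v).1 w) = (g v).1 w
      simp only [ContinuousLinearMap.coe_coe] at hw'
      rw [← hw', ← mul_apply_eq_comp, hrp.2.isIdempotentElem.eq]
    have hrs : r.1 * s = r.1 := by
      have := congrArg star (hsp r.1 r.2)
      rwa [star_mul, hs.isSelfAdjoint.star_eq, hrp.2.isSelfAdjoint.star_eq] at this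
    have h1 : s - r.1 = (1 - r.1) * (s - (g v).1) := by
      rw [sub_mul, one_mul, mul_sub, hrs, hrg]
      abel
    rw [h1, mul_apply_eq_comp]
    exact ((1 - r.1).le_opNorm _).trans
      (mul_le_of_le_one_left (norm_nonneg _) hrp.2.one_sub.norm_le)

variable {f : Op H →ₚ[ℂ] ℂ}

lemma re_apply_mono {a b : Op H} (h : a ≤ b) : (f a).re ≤ (f b).re :=
  (Complex.le_def.1 (OrderHomClass.mono f h)).1

lemma re_apply_smul (t : ℝ) (a : Op H) : (f (t • a)).re = t * (f a).re := by
  rw [← Complex.coe_smul, map_smul, smul_eq_mul, Complex.re_ofReal_mul]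

/-- Domination on projections gives domination on positive elements. -/
lemma dominated_of_proj {e : Op H} (heM : e ∈ S.M) (hep : IsStarProjection e) {w : H}
    (hq : ∀ q ∈ S.M, IsStarProjection q → e * q = q → (f q).re ≤ ‖q w‖ ^ 2) :
    ∀ y ∈ S.M, (f (e * (star y * y) * e)).re ≤ ‖y (e w)‖ ^ 2 := by
  intro y hy
  set c : ℝ := 1 / (‖y‖ ^ 2 + 1) with hc
  have hc0 : 0 < c := by positivity
  set b : Op H := c • (e * (star y * y) * e) with hb
  have hbM : b ∈ S.M := smul_mem_M c (mul_mem (mul_mem heM (mul_mem (star_mem hy) hy)) heM)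
  have hb0 : 0 ≤ b := by
    refine smul_nonneg hc0.le ?_
    have := star_left_conjugate_nonneg (star_mul_self_nonneg y) e
    rwa [hep.isSelfAdjoint.star_eq] at this
  have hb1 : ‖b‖ ≤ 1 := by
    rw [hb, norm_smul, Real.norm_of_nonneg hc0.le]
    have : ‖e * (star y * y) * e‖ ≤ ‖y‖ ^ 2 := by
      refine (norm_mul_le _ _).trans ((mul_le_of_le_one_right (norm_nonneg _) hep.norm_le).trans ?_)
      refine (norm_mul_le _ _).trans ((mul_le_of_le_one_left (norm_nonneg _) hep.norm_le).trans ?_)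
      rw [CStarRing.norm_star_mul_self, sq]
    refine (mul_le_mul_of_nonneg_left this hc0.le).trans ?_
    rw [hc, div_mul_eq_mul_div, one_mul, div_le_one (by positivity)]
    linarith
  have hwb : RCLike.re ⟪w, b w⟫_ℂ = c * ‖y (e w)‖ ^ 2 := by
    have e1 : b = c • (star (y * e) * (y * e)) := by
      rw [hb, star_mul, hep.isSelfAdjoint.star_eq]
      simp only [mul_assoc]
    rw [e1, smul_apply, inner_smul_right_eq_smul, RCLike.smul_re, re_inner_star_mul,
      mul_apply_eq_comp]
  have key : ∀ n : ℕ, (f b).re ≤ c * ‖y (e w)‖ ^ 2 + (1 / ((n + 1 : ℕ) : ℝ)) * (f 1).re := by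
    intro n
    obtain ⟨hl, hu⟩ := stair hb0 hb1 n.succ_pos
    set d := 1 / ((n + 1 : ℕ) : ℝ) with hd
    have hd0 : 0 < d := by positivity
    set Sc := ∑ k ∈ Finset.range (n + 1), cut b ((k + 1) * d)
    refine (re_apply_mono hu).trans ?_
    rw [map_add, Complex.add_re, re_apply_smul, re_apply_smul]
    refine add_le_add ?_ le_rfl
    have h1 : (f Sc).re ≤ RCLike.re ⟪w, Sc w⟫_ℂ := by
      rw [map_sum, Complex.re_sum, sum_apply, inner_sum, map_sum]
      refine Finset.sum_le_sum fun k _ => ?_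
      have hP := Tr.isStarProjection_cut b ((k + 1) * d)
      rw [← norm_sq_proj hP]
      refine hq _ (S.cut_mem_M hbM _) hP ?_
      have ht : (0 : ℝ) < (k + 1) * d := by positivity
      have hcont : Continuous fun z : ℝ => max (z - (k + 1) * d) 0 / max z ((k + 1) * d) :=
        Continuous.div (by fun_prop) (by fun_prop) fun z => (lt_max_of_lt_right ht).ne'
      have hh : hinge b ((k + 1) * d) =
          b * cfc (fun z : ℝ => max (z - (k + 1) * d) 0 / max z ((k + 1) * d)) b := by
        conv_rhs => arg 1; rw [← cfc_id' ℝ b hb0.isSelfAdjoint]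
        rw [hinge, ← cfc_mul (fun z : ℝ => z) _ b (by fun_prop) hcont.continuousOn]
        refine cfc_congr fun z _ => ?_
        rcases le_total z ((k + 1) * d) with hz | hz
        · simp [hz]
        · rw [max_eq_left hz, mul_div_cancel₀ _ (lt_of_lt_of_le ht hz).ne']
      have hz : (1 - e) * hinge b ((k + 1) * d) = 0 := by
        rw [hh, ← mul_assoc, hb, mul_smul_comm, ← mul_assoc, ← mul_assoc, sub_mul, one_mul,
          hep.isIdempotentElem.eq, sub_self, zero_mul, zero_mul, smul_zero, zero_mul]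
      have := Tr.mul_rangeProj_eq_zero hz
      rw [sub_mul, one_mul, sub_eq_zero] at this
      exact this.symm
    refine (mul_le_mul_of_nonneg_left h1 hd0.le).trans ?_
    rw [← hwb]
    refine le_trans (le_of_eq ?_) (re_inner_mono hl w)
    rw [smul_apply, inner_smul_right_eq_smul, RCLike.smul_re]
  have hlim : Tendsto (fun n : ℕ => c * ‖y (e w)‖ ^ 2 + (1 / ((n + 1 : ℕ) : ℝ)) * (f 1).re) atTop
      (𝓝 (c * ‖y (e w)‖ ^ 2 + 0 * (f 1).re)) := by
    refine tendsto_const_nhds.add (Tendsto.mul_const _ ?_)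
    simpa using (tendsto_one_div_add_atTop_nhds_zero_nat (𝕜 := ℝ))
  have h := ge_of_tendsto' hlim key
  rw [hb, re_apply_smul, zero_mul, add_zero] at h
  exact le_of_mul_le_mul_left h hc0

/-- Under every nonzero projection there is a nonzero one killed by `f`. -/
theorem exists_killed (hS : NoNormalCentral S) (hc : Central S f) {e : Op H} (heM : e ∈ S.M)
    (hep : IsStarProjection e) (he0 : e ≠ 0) :
    ∃ q ∈ S.M, IsStarProjection q ∧ e * q = q ∧ q ≠ 0 ∧ (f q).re = 0 := by
  classical
  obtain ⟨v, hv⟩ : ∃ v, e v ≠ 0 := by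
    by_contra h
    push Not at h
    exact he0 (ContinuousLinearMap.ext fun v => by simpa using h v)
  have hfe : 0 ≤ (f e).re := (Complex.nonneg_iff.1 (map_nonneg f hep.nonneg)).1
  set w := (((f e).re + 1) / ‖e v‖ : ℝ) • e v with hw
  have hew : (f e).re < ‖e w‖ ^ 2 := by
    have hee : e (e v) = e v := DFunLike.congr_fun hep.isIdempotentElem.eq v
    rw [hw, ← Complex.coe_smul, map_smul, hee, norm_smul, Complex.norm_real,
      Real.norm_of_nonneg (by positivity), div_mul_cancel₀ _ (norm_ne_zero_iff.2 hv)]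
    nlinarith
  -- projections under `e` on which `f` dominates the vector state
  set T : Set (Op H) := {p | p ∈ S.M ∧ IsStarProjection p ∧ e * p = p ∧ ‖p w‖ ^ 2 ≤ (f p).re}
  have hsucc : ∀ p q : Op H, IsStarProjection p → IsStarProjection q → (p ≤ q ↔ q * p = p) := by
    intro p q hp hq
    constructor
    · intro h
      have h1 : (1 - q) * p * (1 - q) ≤ 0 := by
        have := star_left_conjugate_le_conjugate h (1 - q)
        rwa [hq.one_sub.isSelfAdjoint.star_eq, sub_mul 1 q q, one_mul, hq.isIdempotentElem.eq,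
          sub_self, zero_mul] at this
      have h2 : 0 ≤ (1 - q) * p * (1 - q) := by
        simpa [hq.one_sub.isSelfAdjoint.star_eq] using star_left_conjugate_nonneg hp.nonneg (1 - q)
      have h3 : (1 - q) * p * (1 - q) = 0 := le_antisymm h1 h2
      have h4 : star (p * (1 - q)) * (p * (1 - q)) = 0 := by
        rw [star_mul, hp.isSelfAdjoint.star_eq, hq.one_sub.isSelfAdjoint.star_eq,
          show (1 - q) * p * (p * (1 - q)) = (1 - q) * (p * p) * (1 - q) by simp only [mul_assoc],
          hp.isIdempotentElem.eq, h3]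
      have h5 := congrArg star ((CStarRing.star_mul_self_eq_zero_iff _).1 h4)
      rw [star_mul, hp.isSelfAdjoint.star_eq, hq.one_sub.isSelfAdjoint.star_eq, star_zero, sub_mul,
        one_mul, sub_eq_zero] at h5
      exact h5.symm
    · intro h
      have h' : p * q = p := by
        have := congrArg star h
        rwa [star_mul, hp.isSelfAdjoint.star_eq, hq.isSelfAdjoint.star_eq] at this
      have e1 : q - p = star (q - p) * (q - p) := by
        rw [star_sub, hp.isSelfAdjoint.star_eq, hq.isSelfAdjoint.star_eq, sub_mul, mul_sub, mul_sub,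
          h, h', hp.isIdempotentElem.eq, hq.isIdempotentElem.eq]
        abel
      rw [← sub_nonneg, e1]
      exact star_mul_self_nonneg _
  have hchain : ∀ C ⊆ T, IsChain (· ≤ ·) C → ∀ p₀ ∈ C, ∃ ub ∈ T, ∀ p ∈ C, p ≤ ub := by
    intro C hCT hC p₀ hp₀
    obtain ⟨s, hsM, hs, hsp, hle, happ⟩ := exists_sup (S := S) C ⟨p₀, hp₀⟩
      (fun p hp => ⟨(hCT hp).1, (hCT hp).2.1⟩) (fun p hp q hq => by
        rcases hC.total hp hq with h | h
        · exact ⟨q, hq, (hsucc p q (hCT hp).2.1 (hCT hq).2.1).1 h, (hCT hq).2.1.isIdempotentElem.eq⟩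
        · exact ⟨p, hp, (hCT hp).2.1.isIdempotentElem.eq, (hsucc q p (hCT hq).2.1 (hCT hp).2.1).1 h⟩)
    refine ⟨s, ⟨hsM, hs, hle e fun p hp => (hCT hp).2.2.1, ?_⟩,
      fun p hp => (hsucc p s (hCT hp).2.1 hs).2 (hsp p hp)⟩
    refine le_of_forall_pos_le_add fun ε hε => ?_
    obtain ⟨p, hp, hpv⟩ := happ {w} (min 1 (ε / (2 * ‖w‖ + 1)))
      (lt_min one_pos (by positivity))
    have h1 := (hCT hp).2.2.2
    have h2 : (f p).re ≤ (f s).re :=
      re_apply_mono ((hsucc p s (hCT hp).2.1 hs).2 (hsp p hp))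
    have h3 := hpv w (Finset.mem_singleton_self w)
    rw [sub_apply] at h3
    have h4 : ‖s w‖ ≤ ‖p w‖ + ‖s w - p w‖ := norm_le_norm_add_norm_sub' (s w) (p w)
    have h5 : ‖p w‖ ≤ ‖w‖ :=
      (p.le_opNorm w).trans (mul_le_of_le_one_left (norm_nonneg _) (hCT hp).2.1.norm_le)
    have h6 := (lt_min_iff.1 h3).1
    have h7 : ‖s w - p w‖ * (2 * ‖w‖ + 1) ≤ ε := by
      have := (lt_min_iff.1 h3).2.le
      rwa [le_div_iff₀ (by positivity)] at this
    nlinarith [norm_nonneg (s w - p w), norm_nonneg (p w), norm_nonneg (s w)]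
  obtain ⟨p, -, hpT, hpmax⟩ := zorn_le_nonempty₀ T
    (fun C hCT hC p₀ hp₀ => hchain C hCT hC p₀ hp₀) 0
    ⟨zero_mem _, IsStarProjection.zero _, mul_zero e, by simp⟩
  obtain ⟨hpM, hpp, hpe, hpw⟩ := hpT
  have hpe' : p * e = p := by
    have := congrArg star hpe
    rwa [star_mul, hpp.isSelfAdjoint.star_eq, hep.isSelfAdjoint.star_eq] at this
  have hmul : (e - p) * (e - p) = e - p := by
    rw [sub_mul, mul_sub, mul_sub, hep.isIdempotentElem.eq, hpp.isIdempotentElem.eq, hpe, hpe']
    abel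
  have he0p : IsStarProjection (e - p) := ⟨hmul, hep.isSelfAdjoint.sub hpp.isSelfAdjoint⟩
  have hdom : ∀ q ∈ S.M, IsStarProjection q → (e - p) * q = q → (f q).re ≤ ‖q w‖ ^ 2 := by
    intro q hq hqp heq
    by_contra hlt
    push Not at hlt
    have hpq : p * q = 0 := by
      rw [← heq, ← mul_assoc, mul_sub, hpe', hpp.isIdempotentElem.eq, sub_self, zero_mul]
    have hqp' : q * p = 0 := by
      have := congrArg star hpq
      rwa [star_mul, hpp.isSelfAdjoint.star_eq, hqp.isSelfAdjoint.star_eq, star_zero] at this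
    have hsum : IsStarProjection (p + q) := hpp.add hqp hpq
    have hew' : e * q = q := by
      rw [← heq, ← mul_assoc, mul_sub, hep.isIdempotentElem.eq, hpe]
    have hnorm : ‖(p + q) w‖ ^ 2 = ‖p w‖ ^ 2 + ‖q w‖ ^ 2 := by
      rw [norm_sq_proj hsum, norm_sq_proj hpp, norm_sq_proj hqp, add_apply, inner_add_right,
        map_add]
    have hT : p + q ∈ T :=
      ⟨add_mem hpM hq, hsum, by rw [mul_add, hpe, hew'], by
        rw [map_add, Complex.add_re, hnorm]; linarith⟩
    have hle : p ≤ p + q := le_add_of_nonneg_right hqp.nonneg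
    have hq0 : q = 0 := by simpa using le_antisymm (hpmax hT hle) hle
    rw [hq0] at hlt
    simp at hlt
  refine ⟨e - p, sub_mem heM hpM, he0p, by rw [mul_sub, hep.isIdempotentElem.eq, hpe], ?_, ?_⟩
  · intro h0
    rw [← sub_eq_zero.1 h0] at hpw
    linarith
  · exact eq_zero_of_dominated hS hc (sub_mem heM hpM) he0p
      (dominated_of_proj (sub_mem heM hpM) he0p hdom)

/-- A central functional is killed by projections arbitrarily close to `1`. -/
theorem exists_killed_dense (hS : NoNormalCentral S) (hc : Central S f) (F : Finset H) {δ : ℝ}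
    (hδ : 0 < δ) :
    ∃ q ∈ S.M, IsStarProjection q ∧ (f q).re = 0 ∧ ∀ v ∈ F, ‖(1 - q) v‖ < δ := by
  classical
  set 𝒯 : Set (Set (Op H)) := {C | (∀ q ∈ C, q ∈ S.M ∧ IsStarProjection q ∧ (f q).re = 0) ∧
    C.Pairwise fun q q' => q * q' = 0}
  obtain ⟨C, hC⟩ := zorn_subset 𝒯 fun c hc hchain =>
    ⟨⋃₀ c, ⟨fun q ⟨D, hD, hq⟩ => (hc hD).1 q hq, (Set.pairwise_sUnion hchain.directedOn).2
      fun D hD => (hc hD).2⟩, fun D hD => Set.subset_sUnion_of_mem hD⟩
  obtain ⟨hC1, hC2⟩ := hC.prop
  set P : Set (Op H) := (fun t : Finset C => ∑ q ∈ t, q.1) '' Set.univ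
  have hsum : ∀ t : Finset C, IsStarProjection (∑ q ∈ t, q.1) ∧
      (∀ r ∈ C, (∀ q ∈ t, q.1 ≠ r) → (∑ q ∈ t, q.1) * r = 0) ∧
      ∀ q ∈ t, (∑ q ∈ t, q.1) * q.1 = q.1 := by
    intro t
    induction t using Finset.induction_on with
    | empty => simp [IsStarProjection.zero]
    | @insert a t hat ih =>
      obtain ⟨h1, h2, h3⟩ := ih
      have hz : (∑ q ∈ t, q.1) * a.1 = 0 :=
        h2 a.1 a.2 fun q hq hqa => hat (Subtype.ext hqa ▸ hq)
      have hz' : a.1 * (∑ q ∈ t, q.1) = 0 := by
        have := congrArg star hz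
        rwa [star_mul, h1.isSelfAdjoint.star_eq, (hC1 _ a.2).2.1.isSelfAdjoint.star_eq,
          star_zero] at this
      rw [Finset.sum_insert hat]
      refine ⟨(hC1 _ a.2).2.1.add h1 hz', fun r hr hne => ?_, fun q hq => ?_⟩
      · rw [add_mul, hC2 a.2 hr (hne a (Finset.mem_insert_self _ _)),
          h2 r hr fun q hq => hne q (Finset.mem_insert_of_mem hq), add_zero]
      · rcases Finset.mem_insert.1 hq with rfl | hq
        · rw [add_mul, (hC1 _ q.2).2.1.isIdempotentElem.eq, hz, add_zero]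
        · rw [add_mul, hC2 a.2 q.2 (fun h => hat (Subtype.ext h ▸ hq)), h3 q hq, zero_add]
  have hPmem : ∀ p ∈ P, p ∈ S.M ∧ IsStarProjection p := by
    rintro _ ⟨t, -, rfl⟩
    exact ⟨sum_mem fun q _ => (hC1 _ q.2).1, (hsum t).1⟩
  have hsub : ∀ t t' : Finset C, t ⊆ t' → (∑ q ∈ t', q.1) * (∑ q ∈ t, q.1) = ∑ q ∈ t, q.1 := by
    intro t t' h
    rw [Finset.mul_sum]
    exact Finset.sum_congr rfl fun q hq => (hsum t').2.2 q (h hq)
  obtain ⟨s, hsM, hs, hsp, -, happ⟩ := exists_sup (S := S) P ⟨_, ∅, trivial, rfl⟩ hPmem (by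
    rintro _ ⟨t, -, rfl⟩ _ ⟨t', -, rfl⟩
    exact ⟨_, ⟨t ∪ t', trivial, rfl⟩, hsub _ _ Finset.subset_union_left,
      hsub _ _ Finset.subset_union_right⟩)
  have h1 : s = 1 := by
    by_contra hne
    obtain ⟨q, hqM, hqp, hqs, hq0, hfq⟩ := exists_killed hS hc (sub_mem (one_mem _) hsM) hs.one_sub
      (sub_ne_zero.2 (Ne.symm hne))
    have hz : ∀ r ∈ C, q * r = 0 ∧ r * q = 0 := fun r hr => by
      have hsr : s * r = r := hsp r ⟨{⟨r, hr⟩}, trivial, by simp⟩
      have h : r * q = 0 := by
        have h' : r * s = r := by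
          have := congrArg star hsr
          rwa [star_mul, hs.isSelfAdjoint.star_eq, (hC1 _ hr).2.1.isSelfAdjoint.star_eq] at this
        rw [← hqs, ← mul_assoc, mul_sub, mul_one, h', sub_self, zero_mul]
      refine ⟨?_, h⟩
      have := congrArg star h
      rwa [star_mul, hqp.isSelfAdjoint.star_eq, (hC1 _ hr).2.1.isSelfAdjoint.star_eq,
        star_zero] at this
    have hins : insert q C ∈ 𝒯 := ⟨fun r hr => by
        rcases hr with rfl | hr
        · exact ⟨hqM, hqp, hfq⟩
        · exact hC1 r hr,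
      hC2.insert fun r hr _ => ⟨(hz r hr).1, (hz r hr).2⟩⟩
    have hqC : q ∈ C := hC.le_of_ge hins (Set.subset_insert _ _) (Set.mem_insert _ _)
    exact hq0 (by rw [← hqp.isIdempotentElem.eq]; exact (hz q hqC).1)
  subst h1
  obtain ⟨_, ⟨t, -, rfl⟩, ht⟩ := happ F δ hδ
  refine ⟨_, (hPmem _ ⟨t, trivial, rfl⟩).1, (hsum t).1, ?_, ht⟩
  rw [map_sum, Complex.re_sum, Finset.sum_eq_zero fun q _ => (hC1 _ q.2).2.2]

end Vale.Agent.P078.Sing
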