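import Vale.Agent.P078.Sing.Dense

/-!
# Limits of sums of vector functionals along refinement are central
-/

open Filter Topology
open scoped ComplexOrder InnerProductSpace

noncomputable section

namespace Vale.Agent.P078.Sing

universe u

variable {H : Type u} [NormedAddCommGroup H] [InnerProductSpace ℂ H] [CompleteSpace H]
  {S : Masa H}

/-- The sum of the vector functionals of `w`. -/
def vecFun {ι : Type*} [Fintype ι] (w : ι → H) : Op H →ₚ[ℂ] ℂ :=
  PositiveLinearMap.mk₀
    { toFun := fun y => ∑ i, ⟪w i, y (w i)⟫_ℂ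
      map_add' := fun y z => by simp [inner_add_right, Finset.sum_add_distrib]
      map_smul' := fun t y => by simp [inner_smul_right, Finset.mul_sum] }
    fun y hy => Finset.sum_nonneg fun i _ =>
      ((ContinuousLinearMap.nonneg_iff_isPositive y).1 hy).inner_nonneg_right (w i)

lemma vecFun_apply {ι : Type*} [Fintype ι] (w : ι → H) (y : Op H) :
    vecFun w y = ∑ i, ⟪w i, y (w i)⟫_ℂ := rfl

lemma vecFun_proj {ι : Type*} [Fintype ι] (w : ι → H) {q : Op H} (hq : IsStarProjection q) :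
    (vecFun w q).re = ∑ i, ‖q (w i)‖ ^ 2 := by
  rw [vecFun_apply, Complex.re_sum]
  exact Finset.sum_congr rfl fun i _ => (norm_sq_proj hq (w i)).symm

lemma norm_vecFun_le {ι : Type*} [Fintype ι] (w : ι → H) (y : Op H) :
    ‖vecFun w y‖ ≤ (∑ i, ‖w i‖ ^ 2) * ‖y‖ := by
  rw [vecFun_apply, Finset.sum_mul]
  refine (norm_sum_le _ _).trans (Finset.sum_le_sum fun i _ => ?_)
  refine (norm_inner_le_norm _ _).trans ?_
  calc ‖w i‖ * ‖y (w i)‖ ≤ ‖w i‖ * (‖y‖ * ‖w i‖) :=
        mul_le_mul_of_nonneg_left (y.le_opNorm _) (norm_nonneg _)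
    _ = ‖w i‖ ^ 2 * ‖y‖ := by ring

lemma Part.Refines.piece {P : Part S} {e : Op H} {he : e ∈ S.A} {hp : IsStarProjection e}
    (h : P.Refines (Part.pair S he hp)) (j : Fin P.n) : e * P.p j = P.p j ∨ e * P.p j = 0 := by
  obtain ⟨i, hi⟩ := h j
  rcases (Fin.exists_fin_two (p := fun l : Fin 2 => ![e, 1 - e] l * P.p j = P.p j)).1 ⟨i, hi⟩
    with hj | hj <;> simp at hj
  · exact Or.inl hj
  · right
    rwa [sub_mul, one_mul, sub_eq_self] at hj

/-- Vectors inside or outside `e` do not see the order of `e` and `y`. -/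
lemma vecFun_central {ι : Type*} [Fintype ι] {w : ι → H} {e : Op H} (hp : IsStarProjection e)
    (h : ∀ i, e (w i) = w i ∨ e (w i) = 0) (y : Op H) : vecFun w (e * y) = vecFun w (y * e) := by
  rw [vecFun_apply, vecFun_apply]
  refine Finset.sum_congr rfl fun i _ => ?_
  rw [mul_apply_eq_comp, mul_apply_eq_comp, ← ContinuousLinearMap.adjoint_inner_left,
    ← ContinuousLinearMap.star_eq_adjoint, hp.isSelfAdjoint.star_eq]
  rcases h i with hi | hi <;> simp [hi]

variable (S) in
/-- A bounded family of positive functionals has a limit along the refinement ultrafilter. -/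
theorem exists_limFun (G : Part S → (Op H →ₚ[ℂ] ℂ)) {C : ℝ} (hC : ∀ P y, ‖G P y‖ ≤ C * ‖y‖) :
    ∃ g : Op H →ₚ[ℂ] ℂ,
      (∀ y, Tendsto (fun P => G P y) (S.ult : Filter (Part S)) (𝓝 (g y))) ∧
      ∀ y, ‖g y‖ ≤ C * ‖y‖ := by
  have hex : ∀ y, ∃ l, ‖l‖ ≤ C * ‖y‖ ∧
      Tendsto (fun P => G P y) (S.ult : Filter (Part S)) (𝓝 l) := fun y => by
    obtain ⟨l, hl, hlim⟩ := (isCompact_closedBall (0 : ℂ) (C * ‖y‖)).ultrafilter_le_nhds
      (S.ult.map fun P => G P y)
      (le_principal_iff.2 (mem_map.2 (univ_mem' fun P => mem_closedBall_zero_iff.2 (hC P y))))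
    exact ⟨l, mem_closedBall_zero_iff.1 hl, hlim⟩
  choose L hLn hL using hex
  refine ⟨PositiveLinearMap.mk₀
    { toFun := L
      map_add' := fun y z => tendsto_nhds_unique (hL _)
        (((hL y).add (hL z)).congr fun P => (map_add (G P) y z).symm)
      map_smul' := fun t y => tendsto_nhds_unique (hL _)
        (((hL y).const_mul t).congr fun P => (map_smul (G P) t y).symm) } fun y hy => ?_, hL, hLn⟩
  have h2 : ∀ P, 0 ≤ (G P y).re ∧ 0 = (G P y).im := fun P =>
    Complex.nonneg_iff.1 (map_nonneg (G P) hy)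
  exact Complex.nonneg_iff.2 ⟨ge_of_tendsto' ((Complex.continuous_re.tendsto _).comp (hL y))
      fun P => (h2 P).1,
    tendsto_nhds_unique (tendsto_const_nhds.congr fun P => (h2 P).2)
      ((Complex.continuous_im.tendsto _).comp (hL y))⟩

lemma Central.of_eventually {G : Part S → (Op H →ₚ[ℂ] ℂ)} {g : Op H →ₚ[ℂ] ℂ}
    (hg : ∀ y, Tendsto (fun P => G P y) (S.ult : Filter (Part S)) (𝓝 (g y)))
    (h : ∀ e (he : e ∈ S.A) (hp : IsStarProjection e), ∀ P : Part S,
      P.Refines (Part.pair S he hp) → ∀ y, G P (e * y) = G P (y * e)) :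
    Central S g := fun e he hp y _ =>
  tendsto_nhds_unique (hg _)
    ((hg _).congr' ((S.eventually_refines (Part.pair S he hp)).mono fun P hP =>
      (h e he hp P hP y).symm))

variable {ι : Type*} [Fintype ι] (x : Op H) (u : ι → H)

/-- The vectors `p_a x p_b u_i`. -/
def pairVec (P Q : Part S) : ι × Fin P.n × Fin Q.n → H :=
  fun k => P.p k.2.1 (x (Q.p k.2.2 (u k.1)))

/-- Their functional. -/
def pairFun (P Q : Part S) : Op H →ₚ[ℂ] ℂ := vecFun (pairVec x u P Q)

/-- The vectors `p_K pinch_Q(x) u_i`. -/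
def cellVec (P Q : Part S) : ι × Fin P.n → H := fun k => P.p k.2 (Q.pinch x (u k.1))

/-- Their functional. -/
def cellFun (P Q : Part S) : Op H →ₚ[ℂ] ℂ := vecFun (cellVec x u P Q)

/-- The common bound. -/
def mass : ℝ := ∑ i, ‖x‖ ^ 2 * ‖u i‖ ^ 2

lemma norm_pairFun_le (P Q : Part S) (y : Op H) : ‖pairFun x u P Q y‖ ≤ mass x u * ‖y‖ := by
  refine (norm_vecFun_le _ y).trans (mul_le_mul_of_nonneg_right ?_ (norm_nonneg _))
  simp only [pairVec, Fintype.sum_prod_type, mass]
  refine Finset.sum_le_sum fun i _ => ?_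
  rw [Finset.sum_comm, ← Q.sum_apply_sq (u i), Finset.mul_sum]
  refine Finset.sum_le_sum fun b _ => ?_
  rw [P.sum_apply_sq, ← mul_pow]
  exact pow_le_pow_left₀ (norm_nonneg _) (x.le_opNorm _) 2

lemma norm_cellFun_le (P Q : Part S) (y : Op H) : ‖cellFun x u P Q y‖ ≤ mass x u * ‖y‖ := by
  refine (norm_vecFun_le _ y).trans (mul_le_mul_of_nonneg_right ?_ (norm_nonneg _))
  simp only [cellVec, Fintype.sum_prod_type, mass]
  refine Finset.sum_le_sum fun i _ => ?_
  rw [P.sum_apply_sq, ← mul_pow]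
  refine pow_le_pow_left₀ (norm_nonneg _) (((Q.pinch x).le_opNorm _).trans ?_) 2
  exact mul_le_mul_of_nonneg_right (Q.norm_pinch_le x) (norm_nonneg _)

lemma pairFun_central {P Q : Part S} {e : Op H} {he : e ∈ S.A} {hp : IsStarProjection e}
    (h : P.Refines (Part.pair S he hp)) (y : Op H) :
    pairFun x u P Q (e * y) = pairFun x u P Q (y * e) := by
  refine vecFun_central hp (fun k => ?_) y
  show e (P.p k.2.1 _) = _ ∨ e (P.p k.2.1 _) = 0
  rcases h.piece k.2.1 with h1 | h1
  · exact Or.inl (DFunLike.congr_fun h1 _)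
  · exact Or.inr (DFunLike.congr_fun h1 _)

lemma cellFun_central {P Q : Part S} {e : Op H} {he : e ∈ S.A} {hp : IsStarProjection e}
    (h : P.Refines (Part.pair S he hp)) (y : Op H) :
    cellFun x u P Q (e * y) = cellFun x u P Q (y * e) := by
  refine vecFun_central hp (fun k => ?_) y
  show e (P.p k.2 _) = _ ∨ e (P.p k.2 _) = 0
  rcases h.piece k.2 with h1 | h1
  · exact Or.inl (DFunLike.congr_fun h1 _)
  · exact Or.inr (DFunLike.congr_fun h1 _)

lemma eventually_small {G : Part S → (Op H →ₚ[ℂ] ℂ)} {g : Op H →ₚ[ℂ] ℂ}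
    (hg : ∀ y, Tendsto (fun P => G P y) (S.ult : Filter (Part S)) (𝓝 (g y))) {q : Op H} {η : ℝ}
    (h : (g q).re < η) : ∀ᶠ P in (S.ult : Filter (Part S)), (G P q).re < η :=
  ((Complex.continuous_re.tendsto _).comp (hg q)).eventually_lt_const h

/-- Along refinement, weak limits of pinchings become limits after averaging. -/
lemma eventually_cross {T : Op H} (hT : S.WLim x T) (v w : H) :
    ∀ᶠ P in (S.ult : Filter (Part S)), 2 * RCLike.re ⟪w, P.pinch x v - T v⟫_ℂ < 1 := by
  have h := ((Complex.continuous_re.tendsto _).comp ((hT w v).sub_const ⟪w, T v⟫_ℂ)).const_mul 2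
  simp only [Function.comp_def, sub_self, Complex.zero_re, mul_zero] at h
  filter_upwards [h.eventually_lt_const zero_lt_one] with P hP
  rw [inner_sub_right]
  exact hP

/-- Choice of the killing projection and of the partitions. -/
theorem exists_scheme (hS : NoNormalCentral S) {T : Op H} (hT : S.WLim x T) (hTn : ‖T‖ ≤ ‖x‖)
    (F : Finset H) {δ : ℝ} (hδ : 0 < δ) (m : ℕ) {η : ℝ} (hη : 0 < η) :
    ∃ q ∈ S.M, IsStarProjection q ∧ (∀ v ∈ F, ‖(1 - q) v‖ < δ) ∧
      ∃ (P₀ : Part S) (P : Fin m → Part S), (∀ j, (P j).Refines P₀) ∧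
        (∀ j, (cellFun x u P₀ (P j) q).re < η) ∧
        (∀ j l, (pairFun x u (P j) (P l) q).re < η) ∧
        ∀ i, ‖∑ j, ((P j).pinch x (u i) - T (u i))‖ ^ 2 ≤ m * ((2 * ‖x‖ * ‖u i‖) ^ 2 + 1) := by
  choose g₁ hg₁ hg₁b using fun Q : Part S =>
    exists_limFun S (fun R => pairFun x u Q R) fun R => norm_pairFun_le x u Q R
  choose g₂ hg₂ hg₂b using fun Q : Part S =>
    exists_limFun S (fun R => pairFun x u R Q) fun R => norm_pairFun_le x u R Q
  choose g₄ hg₄ hg₄b using fun Q : Part S =>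
    exists_limFun S (fun R => cellFun x u Q R) fun R => norm_cellFun_le x u Q R
  obtain ⟨G₁, hG₁, -⟩ := exists_limFun S g₁ hg₁b
  obtain ⟨G₂, hG₂, -⟩ := exists_limFun S g₂ hg₂b
  obtain ⟨G₃, hG₃, -⟩ :=
    exists_limFun S (fun R => pairFun x u R R) fun R => norm_pairFun_le x u R R
  obtain ⟨G₄, hG₄, -⟩ := exists_limFun S g₄ hg₄b
  have c₁ : Central S G₁ := Central.of_eventually hG₁ fun e he hp P hP y =>
    tendsto_nhds_unique (hg₁ P _) ((hg₁ P _).congr fun R => (pairFun_central x u hP y).symm)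
  have c₂ : Central S G₂ := Central.of_eventually hG₂ fun e he hp P hP y =>
    tendsto_nhds_unique (hg₂ P _) ((hg₂ P _).congr'
      ((S.eventually_refines (Part.pair S he hp)).mono fun R hR =>
        (pairFun_central x u hR y).symm))
  have c₃ : Central S G₃ := Central.of_eventually hG₃ fun e he hp P hP y => pairFun_central x u hP y
  have c₄ : Central S G₄ := Central.of_eventually hG₄ fun e he hp P hP y =>
    tendsto_nhds_unique (hg₄ P _) ((hg₄ P _).congr fun R => (cellFun_central x u hP y).symm)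
  let G : Op H →ₚ[ℂ] ℂ := PositiveLinearMap.mk₀
    (G₁.toLinearMap + G₂.toLinearMap + G₃.toLinearMap + G₄.toLinearMap) fun y hy =>
      add_nonneg (add_nonneg (add_nonneg (map_nonneg G₁ hy) (map_nonneg G₂ hy)) (map_nonneg G₃ hy))
        (map_nonneg G₄ hy)
  have hG : ∀ y, G y = G₁ y + G₂ y + G₃ y + G₄ y := fun y => rfl
  have hc : Central S G := fun e he hp y hy => by
    rw [hG, hG, c₁ e he hp y hy, c₂ e he hp y hy, c₃ e he hp y hy, c₄ e he hp y hy]
  obtain ⟨q, hqM, hq, hq0, hqF⟩ := exists_killed_dense hS hc F hδ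
  have hpos : ∀ g : Op H →ₚ[ℂ] ℂ, 0 ≤ (g q).re := fun g =>
    (Complex.nonneg_iff.1 (map_nonneg g hq.nonneg)).1
  rw [hG, Complex.add_re, Complex.add_re, Complex.add_re] at hq0
  have h1 : (G₁ q).re < η := by linarith [hpos G₁, hpos G₂, hpos G₃, hpos G₄]
  have h2 : (G₂ q).re < η := by linarith [hpos G₁, hpos G₂, hpos G₃, hpos G₄]
  have h3 : (G₃ q).re < η := by linarith [hpos G₁, hpos G₂, hpos G₃, hpos G₄]
  have h4 : (G₄ q).re < η := by linarith [hpos G₁, hpos G₂, hpos G₃, hpos G₄]
  obtain ⟨P₀, hP₀⟩ := (eventually_small hG₄ h4).exists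
  refine ⟨q, hqM, hq, hqF, P₀, ?_⟩
  suffices H' : ∀ k, ∃ P : Fin k → Part S, (∀ j, (P j).Refines P₀) ∧
      (∀ j, (cellFun x u P₀ (P j) q).re < η) ∧
      (∀ j, (g₁ (P j) q).re < η ∧ (g₂ (P j) q).re < η) ∧
      (∀ j l, (pairFun x u (P j) (P l) q).re < η) ∧
      ∀ i, ‖∑ j, ((P j).pinch x (u i) - T (u i))‖ ^ 2 ≤ k * ((2 * ‖x‖ * ‖u i‖) ^ 2 + 1) by
    obtain ⟨P, a, b, -, c, d⟩ := H' m
    exact ⟨P, a, b, c, d⟩
  intro k
  induction k with
  | zero => exact ⟨Fin.elim0, fun j => j.elim0, fun j => j.elim0, fun j => j.elim0,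
      fun j => j.elim0, fun i => by simp⟩
  | succ k ih =>
    obtain ⟨P, hR, hcell, hg, hpair, hav⟩ := ih
    obtain ⟨Q, hQ0, hQc, hQ1, hQ2, hQ3, hQl, hQr, hQx⟩ :=
      ((S.eventually_refines P₀).and <| (eventually_small (hg₄ P₀) hP₀).and <|
        (eventually_small hG₁ h1).and <| (eventually_small hG₂ h2).and <|
        (eventually_small hG₃ h3).and <|
        (eventually_all.2 fun j => eventually_small (hg₁ (P j)) (hg j).1).and <|
        (eventually_all.2 fun j => eventually_small (hg₂ (P j)) (hg j).2).and <|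
        eventually_all.2 fun i => eventually_cross x hT (u i)
          (∑ j, ((P j).pinch x (u i) - T (u i)))).exists
    refine ⟨Fin.snoc P Q, fun j => ?_, fun j => ?_, fun j => ?_, fun j l => ?_, fun i => ?_⟩
    · induction j using Fin.lastCases with
      | last => simpa using hQ0
      | cast j => simpa using hR j
    · induction j using Fin.lastCases with
      | last => simpa using hQc
      | cast j => simpa using hcell j
    · induction j using Fin.lastCases with
      | last => simpa using And.intro hQ1 hQ2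
      | cast j => simpa using hg j
    · induction j using Fin.lastCases with
      | last =>
        induction l using Fin.lastCases with
        | last => rw [Fin.snoc_last]; exact hQ3
        | cast l => rw [Fin.snoc_last, Fin.snoc_castSucc]; exact hQr l
      | cast j =>
        induction l using Fin.lastCases with
        | last => rw [Fin.snoc_last, Fin.snoc_castSucc]; exact hQl j
        | cast l => rw [Fin.snoc_castSucc, Fin.snoc_castSucc]; exact hpair j l
    · rw [Fin.sum_univ_castSucc]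
      simp only [Fin.snoc_castSucc, Fin.snoc_last]
      rw [norm_add_sq (𝕜 := ℂ)]
      have h5 : ‖Q.pinch x (u i) - T (u i)‖ ^ 2 ≤ (2 * ‖x‖ * ‖u i‖) ^ 2 := by
        refine pow_le_pow_left₀ (norm_nonneg _) ((norm_sub_le _ _).trans ?_) 2
        have a := ((Q.pinch x).le_opNorm (u i)).trans
          (mul_le_mul_of_nonneg_right (Q.norm_pinch_le x) (norm_nonneg _))
        have b := (T.le_opNorm (u i)).trans (mul_le_mul_of_nonneg_right hTn (norm_nonneg _))
        linarith
      push_cast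
      linarith [hQx i, hav i]

end Vale.Agent.P078.Sing
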