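import Vale.Agent.P078.Sing.Colours

/-!
# So-paving with `O(1/ε)` pieces for MASAs without normal central functionals
-/

open Filter Topology
open scoped ComplexOrder InnerProductSpace
open Vale.Agent.P078.Tr (cut)

noncomputable section

namespace Vale.Agent.P078.Sing

universe u

variable {H : Type u} [NormedAddCommGroup H] [InnerProductSpace ℂ H] [CompleteSpace H]
  {S : Masa H}

/-- Shrinking `q` until `q R q` is small in norm. -/
theorem exists_good_proj {q R : Op H} (hq : q ∈ S.M) (hqp : IsStarProjection q) (hR : R ∈ S.M)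
    (hRs : IsSelfAdjoint R) {t : ℝ} (ht : 0 < t) :
    ∃ q' ∈ S.M, IsStarProjection q' ∧ ‖q' * R * q'‖ ≤ t ∧ q' * q = q' ∧
      ∀ v, ‖(1 - q') v‖ ≤ ‖(1 - q) v‖ + ‖(q * R * q) v‖ / t := by
  set W := q * R * q with hW
  have hWs : IsSelfAdjoint W := by
    rw [IsSelfAdjoint, hW, star_mul, star_mul, hqp.isSelfAdjoint.star_eq, hRs.star_eq, mul_assoc]
  set h := star W * W
  have h0 : 0 ≤ h := star_mul_self_nonneg W
  set c := cut h (t ^ 2)
  have hc : IsStarProjection c := Tr.isStarProjection_cut h _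
  have hWM : W ∈ S.M := mul_mem (mul_mem hq hR) hq
  have hcM : c ∈ S.M := S.cut_mem_M (mul_mem (star_mem hWM) hWM) _
  have hqW : q * W = W := by rw [hW, ← mul_assoc, ← mul_assoc, hqp.isIdempotentElem.eq]
  have hWq : W * q = W := by rw [hW, mul_assoc, hqp.isIdempotentElem.eq]
  have hcomm : Commute q c := Tr.commute_cut _ (show Commute h q by
    show star W * W * q = q * (star W * W)
    rw [hWs.star_eq, mul_assoc W W q, hWq, ← mul_assoc q W W, hqW])
  have hqc : Commute q (1 - c) := (Commute.one_right q).sub_right hcomm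
  refine ⟨q * (1 - c), mul_mem hq (sub_mem (one_mem _) hcM), hqp.mul hc.one_sub hqc, ?_, ?_,
    fun v => ?_⟩
  · rw [show q * (1 - c) * R * (q * (1 - c)) = (1 - c) * W * (1 - c) by
      rw [hW]
      calc q * (1 - c) * R * (q * (1 - c)) = (1 - c) * q * R * (q * (1 - c)) := by rw [hqc.eq]
        _ = _ := by simp only [mul_assoc]]
    have h1 : ‖W * (1 - c)‖ ≤ t :=
      (sq_le_sq₀ (norm_nonneg _) ht.le).1 (norm_mul_cut_compl h0 le_rfl (sq_nonneg t))
    rw [mul_assoc]
    exact (norm_mul_le _ _).trans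
      ((mul_le_of_le_one_left (norm_nonneg _) hc.one_sub.norm_le).trans h1)
  · rw [mul_assoc, ← hqc.eq, ← mul_assoc, hqp.isIdempotentElem.eq]
  · have e : (1 : Op H) - q * (1 - c) = (1 - q) + q * c := by rw [mul_sub, mul_one]; abel
    rw [e, add_apply]
    refine (norm_add_le _ _).trans (add_le_add le_rfl ?_)
    rw [mul_apply_eq_comp]
    refine (q.le_opNorm _).trans ((mul_le_of_le_one_left (norm_nonneg _) hqp.norm_le).trans ?_)
    rw [le_div_iff₀ ht, ← sq_le_sq₀ (by positivity) (norm_nonneg _), mul_pow, norm_sq_proj hc,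
      ← re_inner_star_mul W v, mul_comm]
    refine le_trans (le_of_eq ?_) (re_inner_mono (cut_le h0 (sq_nonneg t)) v)
    rw [smul_apply, inner_smul_right_eq_smul, RCLike.smul_re]

/-- The paving bound for one element. -/
theorem so_pavable (hS : NoNormalCentral S) {x : Op H} (hx : x ∈ S.M) (hxs : IsSelfAdjoint x)
    {ε : ℝ} (hε : 0 < ε) {r : ℕ} (hr : 2 / ε ≤ r) : SoPavable S x ε r := by
  classical
  intro F δ hδ
  have hr0 : 0 < r := by
    have h : (0 : ℝ) < r := lt_of_lt_of_le (by positivity) hr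
    exact_mod_cast h
  have : NeZero r := ⟨hr0.ne'⟩
  rcases eq_or_ne x 0 with rfl | hx0
  · exact ⟨fun i => if i = ⟨0, hr0⟩ then 1 else 0, 0, 1,
      fun i => by dsimp only; split <;> simp [IsStarProjection.one, IsStarProjection.zero, one_mem, zero_mem],
      fun i j hij => by dsimp only; split_ifs with h1 h2 <;> simp_all,
      (Finset.sum_eq_single (⟨0, hr0⟩ : Fin r) (fun i _ hi => if_neg hi)
        (fun h => absurd (Finset.mem_univ _) h)).trans (if_pos rfl), zero_mem _, IsSelfAdjoint.zero _, by simp, one_mem _, IsStarProjection.one _,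
      fun v _ => by simpa using hδ, by simp⟩
  set X := ‖x‖
  have hX : 0 < X := norm_pos_iff.2 hx0
  obtain ⟨T, hTA, hTs, hTn, hT⟩ := S.exists_wLim hx hxs
  set t := ε * X / 2 with ht
  have ht0 : 0 < t := by positivity
  -- the accuracy wanted at the vectors
  set ξ := t * δ / 4 with hξ
  have hξ0 : 0 < ξ := by positivity
  set u : F → H := fun v => v.1
  set B := ∑ v : F, ((2 * X * ‖u v‖) ^ 2 + 1) with hB
  obtain ⟨m₀, hm₀⟩ := exists_nat_gt (B / (ξ / 3) ^ 2)
  set m := m₀ + 1 with hm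
  have hmr : (0 : ℝ) < m := by positivity
  set η := (ξ / 3) ^ 2 / (2 * m * m) with hη
  have hη0 : 0 < η := by positivity
  have hm2 : (1 : ℝ) ≤ (m : ℝ) * m := by
    have : (1 : ℝ) ≤ m := by exact_mod_cast (Nat.succ_pos m₀)
    nlinarith
  set δ₁ := min (δ / 2) (ξ / (3 * X + 1))
  obtain ⟨q, hqM, hq, hqF, P₀, P, hP, hcell, hpair, havg⟩ :=
    exists_scheme x u hS hT hTn F (δ := δ₁) (lt_min (half_pos hδ) (by positivity)) m hη0
  obtain ⟨R, hRn, hRv⟩ := exists_colour_part P₀ P hP hq u hcell hpair r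
  set c := 1 - 1 / (r : ℝ)
  have hr1 : (1 : ℝ) ≤ r := by exact_mod_cast hr0
  have hc0 : 0 ≤ c := by simp only [c]; rw [sub_nonneg, div_le_one (by linarith)]; exact hr1
  have hc1 : c ≤ 1 := by simp only [c]; linarith [show (0 : ℝ) ≤ 1 / r by positivity]
  set Z := R.pinch x - (1 / (r : ℝ)) • x - c • T with hZ
  have hZM : Z ∈ S.M :=
    sub_mem (sub_mem (R.pinch_mem hx) (smul_mem_M _ hx)) (smul_mem_M _ (S.le T hTA))
  have hZs : IsSelfAdjoint Z :=
    ((show IsSelfAdjoint (R.pinch x) by rw [IsSelfAdjoint, ← R.pinch_star, hxs.star_eq]).sub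
      ((IsSelfAdjoint.all (1 / (r : ℝ))).smul hxs)).sub ((IsSelfAdjoint.all c).smul hTs)
  have hZn : ‖Z‖ ≤ 3 * X := by
    refine (norm_sub_le _ _).trans ?_
    have h1 : ‖c • T‖ ≤ X := by
      rw [norm_smul, Real.norm_of_nonneg hc0]
      exact (mul_le_of_le_one_left (norm_nonneg _) hc1).trans hTn
    have h2 : ‖R.pinch x - (1 / (r : ℝ)) • x‖ ≤ 2 * X := by
      refine (norm_sub_le _ _).trans ?_
      rw [norm_smul, Real.norm_of_nonneg (by positivity)]
      have h3 : 1 / (r : ℝ) * ‖x‖ ≤ X :=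
        mul_le_of_le_one_left (norm_nonneg _) ((div_le_one (by linarith)).2 hr1)
      linarith [R.norm_pinch_le x]
    linarith
  obtain ⟨q', hq'M, hq', hq'n, hq'q, hq'v⟩ := exists_good_proj hqM hq hZM hZs ht0
  refine ⟨fun i => R.p (Fin.cast hRn.symm i), c • T, q', fun i => ⟨R.mem _, R.proj _⟩,
    fun i j hij => R.orth _ _ fun h => hij (by simpa [Fin.ext_iff] using h), ?_,
    by rw [← Complex.coe_smul]; exact S.A.smul_mem hTA _, (IsSelfAdjoint.all c).smul hTs, ?_,
    hq'M, hq', fun v hv => ?_, ?_⟩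
  · exact ((finCongr hRn.symm).sum_comp fun i => R.p i).trans R.sum_eq
  · rw [norm_smul, Real.norm_of_nonneg hc0]
    exact (mul_le_of_le_one_left (norm_nonneg _) hc1).trans hTn
  · have hv' := hRv ⟨v, hv⟩ T
    change ‖q (Z v)‖ ≤ _ at hv'
    have hs1 : Real.sqrt η ≤ ξ / 3 := by
      rw [Real.sqrt_le_left (by positivity), hη, div_le_iff₀ (by positivity)]
      nlinarith [sq_nonneg (ξ / 3)]
    have hs2 : Real.sqrt (2 * (m * m * η)) ≤ ξ / 3 := by
      rw [Real.sqrt_le_left (by positivity)]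
      refine le_of_eq ?_
      rw [hη]
      field_simp
    have hs3 : (m : ℝ)⁻¹ * ‖q‖ * ‖∑ j, ((P j).pinch x (u ⟨v, hv⟩) - T (u ⟨v, hv⟩))‖ ≤ ξ / 3 := by
      have h1 : ‖∑ j, ((P j).pinch x (u ⟨v, hv⟩) - T (u ⟨v, hv⟩))‖ ^ 2 ≤ m * B :=
        (havg ⟨v, hv⟩).trans (mul_le_mul_of_nonneg_left
          (Finset.single_le_sum (f := fun v : F => (2 * X * ‖u v‖) ^ 2 + 1)
            (fun w _ => by positivity) (Finset.mem_univ _)) hmr.le)
      have h2 : ‖∑ j, ((P j).pinch x (u ⟨v, hv⟩) - T (u ⟨v, hv⟩))‖ ≤ m * (ξ / 3) := by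
        refine (sq_le_sq₀ (norm_nonneg _) (by positivity)).1 (h1.trans ?_)
        rw [mul_pow, sq (m : ℝ), mul_assoc]
        refine mul_le_mul_of_nonneg_left ?_ hmr.le
        have h3 : B / (ξ / 3) ^ 2 ≤ m := by rw [hm]; push_cast; linarith
        rwa [div_le_iff₀ (by positivity)] at h3
      calc (m : ℝ)⁻¹ * ‖q‖ * ‖∑ j, ((P j).pinch x (u ⟨v, hv⟩) - T (u ⟨v, hv⟩))‖
          ≤ (m : ℝ)⁻¹ * 1 * (m * (ξ / 3)) := by
            refine mul_le_mul (mul_le_mul_of_nonneg_left hq.norm_le (by positivity)) h2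
              (norm_nonneg _) (by positivity)
        _ = ξ / 3 := by field_simp
    have hd := hqF v hv
    have hd1 : ‖(1 - q) v‖ < δ / 2 := lt_of_lt_of_le hd (min_le_left _ _)
    have hd2 : (3 * X + 1) * ‖(1 - q) v‖ ≤ ξ := by
      have := hd.le.trans (min_le_right _ _)
      rw [le_div_iff₀ (by positivity)] at this
      linarith
    have hW : ‖(q * Z * q) v‖ ≤ 2 * ξ := by
      have e : (q * Z * q) v = q (Z v) - q (Z ((1 - q) v)) := by
        simp only [mul_apply_eq_comp, sub_apply, one_apply_eq_self, map_sub]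
        abel
      rw [e]
      refine (norm_sub_le _ _).trans ?_
      have h1 : ‖q (Z ((1 - q) v))‖ ≤ 3 * X * ‖(1 - q) v‖ :=
        (q.le_opNorm _).trans ((mul_le_of_le_one_left (norm_nonneg _) hq.norm_le).trans
          ((Z.le_opNorm _).trans (mul_le_mul_of_nonneg_right hZn (norm_nonneg _))))
      nlinarith [norm_nonneg ((1 - q) v)]
    refine lt_of_le_of_lt (hq'v v) ?_
    have : ‖(q * Z * q) v‖ / t ≤ δ / 2 := by
      rw [div_le_iff₀ ht0]
      refine hW.trans (le_of_eq ?_)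
      rw [hξ]; ring
    linarith
  · have e : ∑ i : Fin r, R.p (Fin.cast hRn.symm i) * x * R.p (Fin.cast hRn.symm i) = R.pinch x :=
      (finCongr hRn.symm).sum_comp fun i => R.p i * x * R.p i
    show ‖q' * (∑ i : Fin r, R.p (Fin.cast hRn.symm i) * x * R.p (Fin.cast hRn.symm i) - c • T) * q'‖ ≤ _
    rw [e, show R.pinch x - c • T = Z + (1 / (r : ℝ)) • x by rw [hZ]; abel, mul_add, add_mul]
    refine (norm_add_le _ _).trans ?_
    have h1 : ‖q' * ((1 / (r : ℝ)) • x) * q'‖ ≤ ε / 2 * X := by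
      refine (norm_mul_le _ _).trans ((mul_le_of_le_one_right (norm_nonneg _) hq'.norm_le).trans ?_)
      refine (norm_mul_le _ _).trans ((mul_le_of_le_one_left (norm_nonneg _) hq'.norm_le).trans ?_)
      rw [norm_smul, Real.norm_of_nonneg (by positivity)]
      refine mul_le_mul_of_nonneg_right ?_ (norm_nonneg _)
      rw [div_le_div_iff₀ (by positivity) two_pos]
      rw [div_le_iff₀ hε] at hr
      linarith
    rw [ht] at hq'n
    show _ ≤ ε * X
    linarith

/-- `n ≤ 2 / ε` for every MASA without normal central functionals. -/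
theorem singular_paving : SingularPavingStatement.{u} :=
  ⟨2, fun _ _ _ _ _ _ _ hS hx hxs hε _ _ hr => so_pavable hS hx hxs hε hr⟩

end Vale.Agent.P078.Sing

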