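import Vale.Agent.P078.Sing.Stair

/-!
# The dominated part of a central functional is a normal central functional
-/

open Filter Topology
open scoped ComplexOrder InnerProductSpace
open Vale.Agent.P078.Tr (cut)
open UniformSpace

noncomputable section

namespace Vale.Agent.P078.Sing

universe u

variable {H : Type u} [NormedAddCommGroup H] [InnerProductSpace ℂ H] [CompleteSpace H]
  (S : Masa H) (f : Op H →ₚ[ℂ] ℂ)

/-- The projections of `A` are in the centralizer of `f`. -/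
def Central : Prop :=
  ∀ e ∈ S.A, IsStarProjection e → ∀ y ∈ S.M, f (e * y) = f (y * e)

/-- The class of an operator in the GNS space. -/
def vecG (a : Op H) : f.GNS := (f.toPreGNS a : f.GNS)

lemma inner_vecG (a b : Op H) : ⟪vecG f a, vecG f b⟫_ℂ = f (star a * b) := by
  rw [vecG, vecG, Completion.inner_coe, PositiveLinearMap.preGNS_inner_def]
  rfl

lemma norm_vecG_sq (a : Op H) : ‖vecG f a‖ ^ 2 = (f (star a * a)).re := by
  rw [← inner_self_eq_norm_sq (𝕜 := ℂ), inner_vecG]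
  rfl

lemma vecG_add (a b : Op H) : vecG f (a + b) = vecG f a + vecG f b := by
  simp [vecG, map_add, Completion.coe_add]

lemma vecG_smul (t : ℝ) (a : Op H) : vecG f (t • a) = (t : ℂ) • vecG f a := by
  rw [← Complex.coe_smul, vecG, vecG, map_smul, Completion.coe_smul]

lemma norm_vecG_smul {t : ℝ} (ht : 0 ≤ t) (a : Op H) : ‖vecG f (t • a)‖ = t * ‖vecG f a‖ := by
  rw [vecG_smul, norm_smul, Complex.norm_real, Real.norm_of_nonneg ht]

lemma pi_vecG (y a : Op H) : f.gnsStarAlgHom y (vecG f a) = vecG f (y * a) := by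
  show f.gnsNonUnitalStarAlgHom y (vecG f a) = _
  rw [vecG, PositiveLinearMap.gnsNonUnitalStarAlgHom_apply_coe]
  rfl

lemma norm_pi_le (y : Op H) : ‖f.gnsStarAlgHom y‖ ≤ ‖y‖ :=
  NonUnitalStarAlgHom.norm_apply_le f.gnsStarAlgHom y

variable {S f}

/-- Two linear maps which agree on the projections of `A` and are continuous agree on `A`. -/
lemma eq_on_A {φ : Op H →L[ℂ] ℂ} (h : ∀ e ∈ S.A, IsStarProjection e → φ e = 0) :
    ∀ a ∈ S.A, φ a = 0 := by
  have hpos : ∀ b ∈ S.A, 0 ≤ b → ‖b‖ ≤ 1 → φ b = 0 := by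
    intro b hb h0 h1
    have hlim : Tendsto (fun n : ℕ => (1 / ((n + 1 : ℕ) : ℝ)) •
        ∑ k ∈ Finset.range (n + 1), cut b ((k + 1) * (1 / ((n + 1 : ℕ) : ℝ)))) atTop (𝓝 b) := by
      rw [tendsto_iff_norm_sub_tendsto_zero]
      refine squeeze_zero (fun n => norm_nonneg _) (fun n => ?_)
        tendsto_one_div_add_atTop_nhds_zero_nat
      obtain ⟨hl, hu⟩ := stair h0 h1 n.succ_pos
      rw [norm_sub_rev]
      refine (CStarAlgebra.norm_le_iff_le_algebraMap _ (by positivity) (sub_nonneg.2 hl)).2 ?_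
      rw [Algebra.algebraMap_eq_smul_one, sub_le_iff_le_add']
      simpa using hu
    have h2 := (φ.continuous.tendsto b).comp hlim
    refine tendsto_nhds_unique h2 ?_
    refine tendsto_const_nhds.congr fun n => ?_
    simp only [Function.comp_apply, map_sum, ← Complex.coe_smul, map_smul]
    rw [Finset.sum_eq_zero fun k _ => h _ (S.cut_mem_A hb _) (Tr.isStarProjection_cut b _),
      smul_zero]
  have hsa : ∀ b ∈ S.A, IsSelfAdjoint b → φ b = 0 := by
    intro b hb hs
    have h1 : φ 1 = 0 := h 1 (one_mem _) (IsStarProjection.one _)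
    set s : ℝ := 1 / (2 * ‖b‖ + 1) with hsdef
    have hs0 : 0 < s := by positivity
    have hb' : s • (b + algebraMap ℝ (Op H) ‖b‖) ∈ S.A := by
      rw [← Complex.coe_smul, Algebra.algebraMap_eq_smul_one, ← Complex.coe_smul]
      exact S.A.smul_mem (add_mem hb (S.A.smul_mem (one_mem _) _)) _
    have h0 : 0 ≤ b + algebraMap ℝ (Op H) ‖b‖ :=
      neg_le_iff_add_nonneg'.1 (by
        have := hs.neg_algebraMap_norm_le_self
        simpa [neg_le] using this)
    have hn : ‖s • (b + algebraMap ℝ (Op H) ‖b‖)‖ ≤ 1 := by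
      rw [norm_smul, Real.norm_of_nonneg hs0.le]
      refine (mul_le_mul_of_nonneg_left (norm_add_le _ _) hs0.le).trans ?_
      have : ‖algebraMap ℝ (Op H) ‖b‖‖ ≤ ‖b‖ := by
        rw [Algebra.algebraMap_eq_smul_one, norm_smul, norm_norm]
        exact mul_le_of_le_one_right (norm_nonneg _) (IsStarProjection.one _).norm_le
      refine (mul_le_mul_of_nonneg_left (add_le_add le_rfl this) hs0.le).trans ?_
      rw [hsdef, div_mul_eq_mul_div, one_mul, div_le_one (by positivity)]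
      linarith
    have h3 := hpos _ hb' (smul_nonneg hs0.le h0) hn
    rw [← Complex.coe_smul, map_smul, smul_eq_zero] at h3
    rcases h3 with h3 | h3
    · exact absurd (Complex.ofReal_eq_zero.1 h3) hs0.ne'
    · rw [map_add, Algebra.algebraMap_eq_smul_one, ← Complex.coe_smul, map_smul, h1, smul_zero,
        add_zero] at h3
      exact h3
  intro b hb
  have h1 := hsa _ (add_mem hb (star_mem hb)) (IsSelfAdjoint.add_star_self b)
  have h2 := hsa _ (S.A.smul_mem (sub_mem hb (star_mem hb)) Complex.I) (by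
    rw [IsSelfAdjoint, star_smul, star_sub, star_star, Complex.star_def, Complex.conj_I]
    module)
  rw [map_smul, smul_eq_zero, or_iff_right Complex.I_ne_zero, map_sub, sub_eq_zero] at h2
  rw [map_add, ← h2, ← two_mul] at h1
  simpa using h1

variable (S f) in
/-- Unitaries of `A` in the centralizer of `f`. -/
def Fix : Set (Op H) :=
  {u | u ∈ S.A ∧ star u * u = 1 ∧ ∀ X ∈ S.M, f (u * X * star u) = f X}

lemma two_sub_one_mem_fix (hc : Central S f) {e : Op H} (he : e ∈ S.A) (hp : IsStarProjection e) :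
    (2 : ℂ) • e - 1 ∈ Fix S f ∧ star ((2 : ℂ) • e - 1) = (2 : ℂ) • e - 1 := by
  set s := (2 : ℂ) • e - 1 with hsdef
  have hs : star s = s := by
    rw [hsdef, star_sub, star_smul, star_one, hp.isSelfAdjoint.star_eq]
    simp
  have hsA : s ∈ S.A := sub_mem (S.A.smul_mem he _) (one_mem _)
  have hss : s * s = 1 := by
    simp only [hsdef, sub_mul, mul_sub, smul_mul_assoc, mul_smul_comm, hp.isIdempotentElem.eq,
      one_mul, mul_one]
    module
  refine ⟨⟨hsA, by rw [hs, hss], fun X hX => ?_⟩, hs⟩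
  have hcs : ∀ Y ∈ S.M, f (s * Y) = f (Y * s) := fun Y hY => by
    simp only [hsdef, sub_mul, mul_sub, smul_mul_assoc, mul_smul_comm, one_mul, mul_one, map_sub,
      map_smul, hc e he hp Y hY]
  rw [hs, mul_assoc, hcs _ (mul_mem hX (S.le s hsA)), mul_assoc, hss, mul_one]

lemma mul_mem_fix {u v : Op H} (hu : u ∈ Fix S f) (hv : v ∈ Fix S f) : u * v ∈ Fix S f := by
  obtain ⟨huA, huu, huf⟩ := hu
  obtain ⟨hvA, hvv, hvf⟩ := hv
  refine ⟨mul_mem huA hvA, ?_, fun X hX => ?_⟩
  · rw [star_mul, mul_assoc, ← mul_assoc (star u), huu, one_mul, hvv]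
  · rw [star_mul, show u * v * X * (star v * star u) = u * (v * X * star v) * star u by
      simp only [mul_assoc], huf _ (mul_mem (mul_mem (S.le v hvA) hX) (star_mem (S.le v hvA))),
      hvf X hX]

variable (S f) in
/-- The conjugates of `e`. -/
def orbit (e : Op H) : Set (Op H) := (fun u => u * e * star u) '' Fix S f

variable (S f) in
/-- Their convex hull. -/
def hullK (e : Op H) : Set (Op H) := convexHull ℝ (orbit S f e)

lemma smul_mem_M (t : ℝ) {a : Op H} (ha : a ∈ S.M) : t • a ∈ S.M := by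
  rw [← Complex.coe_smul]
  exact S.M.toStarSubalgebra.smul_mem ha _

lemma self_mem_hullK (e : Op H) : e ∈ hullK S f e :=
  subset_convexHull ℝ _ ⟨1, ⟨one_mem _, by simp, fun X _ => by simp⟩, by simp⟩

lemma hullK_subset {e : Op H} (heM : e ∈ S.M) {a : Op H} (ha : a ∈ hullK S f e) : a ∈ S.M := by
  refine convexHull_min (t := {a : Op H | a ∈ S.M}) ?_ ?_ ha
  · rintro _ ⟨u, hu, rfl⟩
    exact mul_mem (mul_mem (S.le u hu.1) heM) (star_mem (S.le u hu.1))
  · intro a ha b hb s t _ _ _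
    exact add_mem (smul_mem_M s ha) (smul_mem_M t hb)

lemma hullK_apply {e : Op H} (heM : e ∈ S.M) {a : Op H} (ha : a ∈ hullK S f e) : f a = f e := by
  refine convexHull_min (t := {a : Op H | f a = f e}) ?_ ?_ ha
  · rintro _ ⟨u, hu, rfl⟩
    exact hu.2.2 e heM
  · intro a ha b hb s t _ _ hst
    show f (s • a + t • b) = f e
    rw [map_add, ← Complex.coe_smul, ← Complex.coe_smul, map_smul, map_smul,
      show f a = f e from ha, show f b = f e from hb, ← add_smul, ← Complex.ofReal_add, hst,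
      Complex.ofReal_one, one_smul]

lemma hullK_conj {e s : Op H} (hs : s ∈ Fix S f) {a : Op H} (ha : a ∈ hullK S f e) :
    s * a * star s ∈ hullK S f e := by
  refine convexHull_min (t := {a : Op H | s * a * star s ∈ hullK S f e}) ?_ ?_ ha
  · rintro _ ⟨u, hu, rfl⟩
    exact subset_convexHull ℝ _ ⟨s * u, mul_mem_fix hs hu, by simp only [star_mul, mul_assoc]⟩
  · intro a ha b hb p q hp hq hpq
    show s * (p • a + q • b) * star s ∈ hullK S f e
    rw [mul_add, add_mul, mul_smul_comm, mul_smul_comm, smul_mul_assoc, smul_mul_assoc]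
    exact convex_convexHull ℝ _ ha hb hp hq hpq

lemma hullK_dom {e : Op H} (heM : e ∈ S.M) (hep : IsStarProjection e) {w : H}
    (hdom : ∀ y ∈ S.M, (f (e * (star y * y) * e)).re ≤ ‖y w‖ ^ 2) {a : Op H}
    (ha : a ∈ hullK S f e) :
    ∃ F : Finset H, ∀ y ∈ S.M, ‖vecG f (y * a)‖ ≤ ∑ v ∈ F, ‖y v‖ := by
  classical
  refine convexHull_min
    (t := {a : Op H | ∃ F : Finset H, ∀ y ∈ S.M, ‖vecG f (y * a)‖ ≤ ∑ v ∈ F, ‖y v‖}) ?_ ?_ ha
  · rintro _ ⟨u, hu, rfl⟩
    refine ⟨{u w}, fun y hy => ?_⟩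
    have huM : u ∈ S.M := S.le u hu.1
    rw [Finset.sum_singleton, ← sq_le_sq₀ (norm_nonneg _) (norm_nonneg _), norm_vecG_sq]
    have e1 : star (y * (u * e * star u)) * (y * (u * e * star u)) =
        u * (e * (star (y * u) * (y * u)) * e) * star u := by
      simp only [star_mul, star_star, hep.isSelfAdjoint.star_eq, mul_assoc]
    rw [e1, hu.2.2 _ (mul_mem (mul_mem heM (mul_mem (star_mem (mul_mem hy huM))
      (mul_mem hy huM))) heM)]
    exact hdom (y * u) (mul_mem hy huM)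
  · intro a ⟨F, hF⟩ b ⟨G, hG⟩ p q hp hq hpq
    refine ⟨F ∪ G, fun y hy => ?_⟩
    have hF' : ‖vecG f (y * a)‖ ≤ ∑ v ∈ F ∪ G, ‖y v‖ := (hF y hy).trans
      (Finset.sum_le_sum_of_subset_of_nonneg Finset.subset_union_left fun v _ _ => norm_nonneg _)
    have hG' : ‖vecG f (y * b)‖ ≤ ∑ v ∈ F ∪ G, ‖y v‖ := (hG y hy).trans
      (Finset.sum_le_sum_of_subset_of_nonneg Finset.subset_union_right fun v _ _ => norm_nonneg _)
    rw [mul_add, mul_smul_comm, mul_smul_comm, vecG_add]
    refine (norm_add_le _ _).trans ?_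
    rw [norm_vecG_smul f hp, norm_vecG_smul f hq]
    calc p * ‖vecG f (y * a)‖ + q * ‖vecG f (y * b)‖
        ≤ p * (∑ v ∈ F ∪ G, ‖y v‖) + q * ∑ v ∈ F ∪ G, ‖y v‖ :=
          add_le_add (mul_le_mul_of_nonneg_left hF' hp) (mul_le_mul_of_nonneg_left hG' hq)
      _ = _ := by rw [← add_mul, hpq, one_mul]

lemma midpoint_bound {d r : ℝ} (hd0 : 0 ≤ d) {v w : f.GNS} (hv : ‖v‖ ≤ d + r) (hw : ‖w‖ ≤ d + r)
    (hm : 2 * d ≤ ‖v + w‖) : ‖v - w‖ ≤ Real.sqrt (4 * ((d + r) ^ 2 - d ^ 2)) := by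
  refine Real.le_sqrt_of_sq_le ?_
  have hp := parallelogram_law_with_norm ℂ v w
  nlinarith [pow_le_pow_left₀ (norm_nonneg v) hv 2, pow_le_pow_left₀ (norm_nonneg w) hw 2,
    pow_le_pow_left₀ (by linarith) hm 2]

/-- The least point of the hull, approached by a sequence. -/
theorem exists_least {e : Op H} (heM : e ∈ S.M) :
    ∃ (c : f.GNS) (a : ℕ → Op H), (∀ n, a n ∈ hullK S f e) ∧
      Tendsto (fun n => vecG f (a n)) atTop (𝓝 c) ∧
      ∀ s ∈ Fix S f, Tendsto (fun n => vecG f (s * a n * star s)) atTop (𝓝 c) := by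
  set T : Set ℝ := (fun a => ‖vecG f a‖) '' hullK S f e
  set d := sInf T
  have hne : T.Nonempty := ⟨_, e, self_mem_hullK e, rfl⟩
  have hbdd : BddBelow T := ⟨0, by rintro _ ⟨a, -, rfl⟩; exact norm_nonneg _⟩
  have hd : ∀ a ∈ hullK S f e, d ≤ ‖vecG f a‖ := fun a ha => csInf_le hbdd ⟨a, ha, rfl⟩
  have hd0 : 0 ≤ d := le_csInf hne (by rintro _ ⟨a, -, rfl⟩; exact norm_nonneg _)
  have hex : ∀ n : ℕ, ∃ a ∈ hullK S f e, ‖vecG f a‖ < d + 1 / ((n : ℝ) + 1) := fun n => by
    obtain ⟨_, ⟨a, ha, rfl⟩, hlt⟩ := exists_lt_of_csInf_lt hne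
      (lt_add_of_pos_right d (show (0 : ℝ) < 1 / ((n : ℝ) + 1) by positivity))
    exact ⟨a, ha, hlt⟩
  choose a haK hlt using hex
  have hclose : ∀ A B : Op H, A ∈ hullK S f e → B ∈ hullK S f e → ∀ r, ‖vecG f A‖ ≤ d + r →
      ‖vecG f B‖ ≤ d + r → ‖vecG f A - vecG f B‖ ≤ Real.sqrt (4 * ((d + r) ^ 2 - d ^ 2)) := by
    intro A B hA hB r hAr hBr
    refine midpoint_bound hd0 hAr hBr ?_
    have hm := hd _ (convex_convexHull ℝ _ hA hB (show (0 : ℝ) ≤ 1 / 2 by norm_num)
      (show (0 : ℝ) ≤ 1 / 2 by norm_num) (by norm_num))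
    rw [← smul_add, norm_vecG_smul f (by norm_num), vecG_add] at hm
    linarith
  have hb0 : Tendsto (fun N : ℕ => Real.sqrt (4 * ((d + 1 / ((N : ℝ) + 1)) ^ 2 - d ^ 2))) atTop
      (𝓝 0) := by
    have := ((((tendsto_one_div_add_atTop_nhds_zero_nat (𝕜 := ℝ)).const_add d).pow 2).sub_const
      (d ^ 2)).const_mul 4 |>.sqrt
    simpa using this
  have hcau : CauchySeq fun n => vecG f (a n) := by
    refine cauchySeq_of_le_tendsto_0 _ (fun n m N hn hm => ?_) hb0
    rw [dist_eq_norm]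
    have hle : ∀ k, N ≤ k → ‖vecG f (a k)‖ ≤ d + 1 / ((N : ℝ) + 1) := fun k hk =>
      (hlt k).le.trans (by gcongr)
    exact hclose _ _ (haK n) (haK m) _ (hle n hn) (hle m hm)
  obtain ⟨c, hclim⟩ := cauchySeq_tendsto_of_complete hcau
  refine ⟨c, a, haK, hclim, fun s hs => ?_⟩
  have hn : ∀ n, ‖vecG f (s * a n * star s)‖ = ‖vecG f (a n)‖ := fun n => by
    have hM := hullK_subset heM (haK n)
    have e1 : star (s * a n * star s) * (s * a n * star s) = s * (star (a n) * a n) * star s := by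
      rw [star_mul, star_mul, star_star, show s * (star (a n) * star s) * (s * a n * star s) =
        s * (star (a n) * ((star s * s) * a n)) * star s by simp only [mul_assoc], hs.2.1, one_mul]
    rw [← sq_eq_sq₀ (norm_nonneg _) (norm_nonneg _), norm_vecG_sq, norm_vecG_sq, e1,
      hs.2.2 _ (mul_mem (star_mem hM) hM)]
  refine hclim.congr_dist (squeeze_zero (fun n => dist_nonneg) (fun n => ?_) hb0)
  rw [dist_eq_norm]
  exact hclose _ _ (haK n) (hullK_conj hs (haK n)) _ (hlt n).le ((hn n).le.trans (hlt n).le)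

lemma inner_pi_split {V : Type*} [NormedAddCommGroup V] [InnerProductSpace ℂ V] (π : V →L[ℂ] V)
    (hπ : ‖π‖ ≤ 1) (c v : V) :
    ‖⟪c, π c⟫_ℂ‖ ≤ ‖c - v‖ * (‖c‖ + ‖v‖) + ‖⟪v, π v⟫_ℂ‖ := by
  have e1 : ⟪c, π c⟫_ℂ = (⟪c, π (c - v)⟫_ℂ + ⟪c - v, π v⟫_ℂ) + ⟪v, π v⟫_ℂ := by
    rw [map_sub, inner_sub_right, inner_sub_left]
    ring
  have hb : ∀ w : V, ‖π w‖ ≤ ‖w‖ := fun w =>
    (π.le_opNorm w).trans (mul_le_of_le_one_left (norm_nonneg _) hπ)
  rw [e1]
  refine (norm_add_le _ _).trans (add_le_add ((norm_add_le _ _).trans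
    ((add_le_add (norm_inner_le_norm _ _) (norm_inner_le_norm _ _)).trans ?_)) le_rfl)
  nlinarith [hb (c - v), hb v, norm_nonneg c, norm_nonneg (c - v)]

variable (f) in
/-- The functional of a point of the GNS space. -/
def pointFun (c : f.GNS) : Op H →L[ℂ] ℂ :=
  LinearMap.mkContinuous
    { toFun := fun y => ⟪c, f.gnsStarAlgHom y c⟫_ℂ
      map_add' := fun y z => by simp [inner_add_right]
      map_smul' := fun t y => by simp [inner_smul_right] } (‖c‖ * ‖c‖) fun y => by
      show ‖⟪c, f.gnsStarAlgHom y c⟫_ℂ‖ ≤ _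
      refine (norm_inner_le_norm _ _).trans ?_
      refine (mul_le_mul_of_nonneg_left ((f.gnsStarAlgHom y).le_opNorm c) (norm_nonneg _)).trans ?_
      nlinarith [norm_pi_le f y, norm_nonneg c, mul_nonneg (norm_nonneg c) (norm_nonneg c)]

lemma pointFun_apply (c : f.GNS) (y : Op H) : pointFun f c y = ⟪c, f.gnsStarAlgHom y c⟫_ℂ := rfl

lemma pointFun_pos (c : f.GNS) (y : Op H) : 0 ≤ pointFun f c (star y * y) := by
  rw [pointFun_apply, map_mul, map_star, mul_apply_eq_comp, ContinuousLinearMap.star_eq_adjoint,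
    ContinuousLinearMap.adjoint_inner_right, inner_self_eq_norm_sq_to_K]
  simp

/-- The functional of the least point is central. -/
lemma pointFun_central (hc : Central S f) {e : Op H} (heM : e ∈ S.M) {c : f.GNS} {a : ℕ → Op H}
    (haK : ∀ n, a n ∈ hullK S f e) (hclim : Tendsto (fun n => vecG f (a n)) atTop (𝓝 c))
    (hconj : ∀ s ∈ Fix S f, Tendsto (fun n => vecG f (s * a n * star s)) atTop (𝓝 c)) :
    ∀ b ∈ S.A, ∀ y ∈ S.M, pointFun f c (b * y) = pointFun f c (y * b) := by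
  set h := pointFun f c with hdef
  have hlim : ∀ (v : ℕ → f.GNS), Tendsto v atTop (𝓝 c) → ∀ y,
      Tendsto (fun n => ⟪v n, f.gnsStarAlgHom y (v n)⟫_ℂ) atTop (𝓝 (h y)) := fun v hv y =>
    hv.inner (((f.gnsStarAlgHom y).continuous.tendsto c).comp hv)
  have hinv : ∀ s ∈ Fix S f, ∀ y ∈ S.M, h y = h (star s * y * s) := by
    intro s hs y hy
    have hsM : s ∈ S.M := S.le s hs.1
    refine tendsto_nhds_unique (hlim _ (hconj s hs) y)
      ((hlim _ hclim (star s * y * s)).congr fun n => ?_)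
    rw [pi_vecG, pi_vecG, inner_vecG, inner_vecG]
    have e1 : star (s * a n * star s) * (y * (s * a n * star s)) =
        s * (star (a n) * (star s * y * s * a n)) * star s := by
      simp only [star_mul, star_star, mul_assoc]
    rw [e1, hs.2.2 _ (mul_mem (star_mem (hullK_subset heM (haK n)))
      (mul_mem (mul_mem (mul_mem (star_mem hsM) hy) hsM) (hullK_subset heM (haK n))))]
  have hcen : ∀ p ∈ S.A, IsStarProjection p → ∀ y ∈ S.M, h (p * y) = h (y * p) := by
    intro p hp hpp y hy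
    obtain ⟨hs, hss⟩ := two_sub_one_mem_fix hc hp hpp
    set s := (2 : ℂ) • p - 1 with hsdef
    have h2 := hinv s hs (s * y) (mul_mem (S.le s hs.1) hy)
    rw [hss, ← mul_assoc s s y, show s * s = 1 by rw [← hs.2.1, hss], one_mul] at h2
    simp only [hsdef, sub_mul, mul_sub, smul_mul_assoc, mul_smul_comm, one_mul, mul_one, map_sub,
      map_smul] at h2
    simpa using h2
  intro b hb y hy
  let φ : Op H →L[ℂ] ℂ := h.comp ((ContinuousLinearMap.mul ℂ (Op H)).flip y -
    ContinuousLinearMap.mul ℂ (Op H) y)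
  have := eq_on_A (S := S) (φ := φ) (fun p hp hpp => by simp [φ, hcen p hp hpp y hy]) b hb
  simpa [φ, sub_eq_zero] using this

/-- Under the hypothesis, a central functional vanishes where it is dominated. -/
theorem eq_zero_of_dominated (hS : NoNormalCentral S) (hc : Central S f) {e : Op H}
    (heM : e ∈ S.M) (hep : IsStarProjection e) {w : H}
    (hdom : ∀ y ∈ S.M, (f (e * (star y * y) * e)).re ≤ ‖y w‖ ^ 2) : (f e).re = 0 := by
  obtain ⟨c, a, haK, hclim, hconj⟩ := exists_least (S := S) (f := f) heM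
  have hnc : IsNormalCentral S (pointFun f c : Op H →ₗ[ℂ] ℂ) := by
    refine ⟨fun y _ => pointFun_pos c y, pointFun_central hc heM haK hclim hconj,
      fun ε hε => ?_⟩
    have h0 : Tendsto (fun n => ‖c - vecG f (a n)‖ * (‖c‖ + ‖vecG f (a n)‖)) atTop (𝓝 0) := by
      simpa using ((tendsto_const_nhds (x := c)).sub hclim).norm.mul (hclim.norm.const_add ‖c‖)
    obtain ⟨n, hn⟩ := ((Metric.tendsto_nhds.1 h0 (ε / 2) (half_pos hε))).exists
    rw [Real.dist_0_eq_abs, abs_of_nonneg (by positivity)] at hn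
    obtain ⟨F, hF⟩ := hullK_dom heM hep hdom (haK n)
    refine ⟨F, ε / (2 * ((‖vecG f (a n)‖ + 1) * ((F.card : ℝ) + 1))), by positivity,
      fun y hy hy1 hsmall => ?_⟩
    show ‖pointFun f c y‖ ≤ ε
    rw [pointFun_apply]
    have h3 : ‖⟪vecG f (a n), f.gnsStarAlgHom y (vecG f (a n))⟫_ℂ‖ ≤ ε / 2 := by
      refine (norm_inner_le_norm _ _).trans ?_
      rw [pi_vecG]
      refine (mul_le_mul_of_nonneg_left ((hF y hy).trans
        (Finset.sum_le_card_nsmul F _ _ fun v hv => (hsmall v hv).le)) (norm_nonneg _)).trans ?_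
      rw [nsmul_eq_mul, ← mul_assoc, mul_div_assoc', div_le_div_iff₀ (by positivity) two_pos]
      nlinarith [mul_nonneg (norm_nonneg (vecG f (a n))) (Nat.cast_nonneg (α := ℝ) F.card),
        norm_nonneg (vecG f (a n)), Nat.cast_nonneg (α := ℝ) F.card]
    refine (inner_pi_split _ ((norm_pi_le f y).trans hy1) c (vecG f (a n))).trans ?_
    linarith
  have hc0 : c = 0 := by
    have := hS _ hnc 1 (one_mem _)
    change pointFun f c 1 = 0 at this
    rw [pointFun_apply, map_one, one_apply_eq_self, inner_self_eq_zero] at this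
    exact this
  have hfe : Tendsto (fun n => ⟪vecG f 1, vecG f (a n)⟫_ℂ) atTop (𝓝 ⟪vecG f 1, c⟫_ℂ) :=
    tendsto_const_nhds.inner hclim
  rw [hc0, inner_zero_right] at hfe
  have hce : ∀ n, ⟪vecG f 1, vecG f (a n)⟫_ℂ = f e := fun n => by
    rw [inner_vecG, star_one, one_mul, hullK_apply heM (haK n)]
  simp only [hce] at hfe
  rw [tendsto_nhds_unique hfe tendsto_const_nhds |>.symm]
  simp

end Vale.Agent.P078.Sing
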