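import Vale.Agent.P078.Sing.Defs
import Vale.Agent.P078.Tr.Basics.Cut
import Vale.Agent.P078.Tr.Basics.Expect

/-!
# Partitions, pinchings and their weak limits
-/

open Filter Topology
open scoped ComplexOrder InnerProductSpace
open Vale.Agent.P078.Tr (cut rangeProj hinge)

noncomputable section

namespace Vale.Agent.P078.Sing

universe u

variable {H : Type u} [NormedAddCommGroup H] [InnerProductSpace ℂ H] [CompleteSpace H]

/-- A finite partition of the unit in `A` (zero pieces allowed). -/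
structure Part (S : Masa H) where
  /-- The number of pieces. -/
  n : ℕ
  /-- The pieces. -/
  p : Fin n → Op H
  mem : ∀ i, p i ∈ S.A
  proj : ∀ i, IsStarProjection (p i)
  orth : ∀ i j, i ≠ j → p i * p j = 0
  sum_eq : ∑ i, p i = 1

/-- `Q` is finer than `P`. -/
def Part.Refines {S : Masa H} (Q P : Part S) : Prop :=
  ∀ j, ∃ i, P.p i * Q.p j = Q.p j

/-- The pinching by a partition. -/
def Part.pinch {S : Masa H} (P : Part S) (x : Op H) : Op H := ∑ i, P.p i * x * P.p i

namespace Masa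

variable (S : Masa H)

lemma mem_M_iff {x : Op H} : x ∈ S.M ↔ ∀ y ∈ S.M.commutant, y * x = x * y := by
  conv_lhs => rw [← VonNeumannAlgebra.commutant_commutant S.M]
  exact VonNeumannAlgebra.mem_commutant_iff

lemma commute_of_mem {x y : Op H} (hx : x ∈ S.M) (hy : y ∈ S.M.commutant) : Commute y x :=
  (S.mem_M_iff.1 hx) y hy

lemma rangeProj_mem_M {g : Op H} (hg : g ∈ S.M) (hs : IsSelfAdjoint g) : rangeProj g ∈ S.M :=
  S.mem_M_iff.2 fun _ hy => (Tr.commute_rangeProj hs (S.commute_of_mem hg hy)).eq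

lemma cut_mem_M {h : Op H} (hh : h ∈ S.M) (t : ℝ) : cut h t ∈ S.M :=
  S.rangeProj_mem_M (S.mem_M_iff.2 fun _ hy => ((S.commute_of_mem hh hy).symm.cfc_real _).symm.eq)
    (Tr.hinge_isSelfAdjoint h t)

lemma cut_mem_A {h : Op H} (hh : h ∈ S.A) (t : ℝ) : cut h t ∈ S.A :=
  S.masa _ (S.cut_mem_M (S.le h hh) t) fun a ha =>
    (Tr.commute_cut t (S.comm h hh a ha : Commute h a)).symm.eq

/-- What commutes with the projections of `A` lies in `A` when it lies in `M`. -/
lemma mem_A_of_commute_proj {a : Op H} (ha : a ∈ S.M)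
    (hc : ∀ e ∈ S.A, IsStarProjection e → Commute e a) : a ∈ S.A := by
  have hsa : ∀ h ∈ S.A, IsSelfAdjoint h → Commute a h := fun h hh hs =>
    Tr.commute_of_cuts hs fun t =>
      (hc _ (S.cut_mem_A hh t) (Tr.isStarProjection_cut h t)).symm
  refine S.masa a ha fun b hb => ?_
  have h1 : Commute a (b + star b) :=
    hsa _ (add_mem hb (star_mem hb)) (IsSelfAdjoint.add_star_self b)
  have h2 : Commute a (Complex.I • (b - star b)) :=
    hsa _ (S.A.smul_mem (sub_mem hb (star_mem hb)) _) (by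
      rw [IsSelfAdjoint, star_smul, star_sub, star_star, Complex.star_def, Complex.conj_I]
      module)
  have e : b = (2 : ℂ)⁻¹ • ((b + star b) + (-Complex.I) • (Complex.I • (b - star b))) := by
    rw [smul_smul, neg_mul, Complex.I_mul_I, neg_neg, one_smul]
    module
  rw [e]
  exact ((h1.add_right (h2.smul_right _)).smul_right _).eq

end Masa

variable {S : Masa H}

namespace Part

variable (P Q : Part S)

lemma mem_M (i : Fin P.n) : P.p i ∈ S.M := S.le _ (P.mem i)

lemma comm_A (i : Fin P.n) {a : Op H} (ha : a ∈ S.A) : P.p i * a = a * P.p i :=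
  S.comm _ (P.mem i) _ ha

lemma mul_self (i : Fin P.n) : P.p i * P.p i = P.p i := (P.proj i).isIdempotentElem.eq

lemma star_p (i : Fin P.n) : star (P.p i) = P.p i := (P.proj i).isSelfAdjoint.star_eq

lemma sum_apply_sq (v : H) : ∑ i, ‖P.p i v‖ ^ 2 = ‖v‖ ^ 2 := by
  have h : ∀ i, (‖P.p i v‖ ^ 2 : ℂ) = ⟪v, P.p i v⟫_ℂ := fun i => by
    have e : ⟪v, P.p i v⟫_ℂ = ⟪P.p i v, P.p i v⟫_ℂ := by
      conv_rhs => rw [← ContinuousLinearMap.adjoint_inner_right,
        ← ContinuousLinearMap.star_eq_adjoint, P.star_p, ← mul_apply_eq_comp, P.mul_self]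
    rw [e, inner_self_eq_norm_sq_to_K]
    rfl
  apply Complex.ofReal_injective
  push_cast
  rw [Finset.sum_congr rfl fun i _ => h i, ← inner_sum, ← _root_.sum_apply (f := P.p), P.sum_eq,
    one_apply_eq_self, inner_self_eq_norm_sq_to_K]
  rfl

lemma pinch_mem {x : Op H} (hx : x ∈ S.M) : P.pinch x ∈ S.M :=
  sum_mem fun i _ => mul_mem (mul_mem (P.mem_M i) hx) (P.mem_M i)

lemma p_mul_pinch (i : Fin P.n) (x : Op H) : P.p i * P.pinch x = P.p i * x * P.p i := by
  rw [pinch, Finset.mul_sum, Finset.sum_eq_single i (fun j _ hj => ?_) (by simp)]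
  · rw [← mul_assoc, ← mul_assoc, P.mul_self]
  · rw [← mul_assoc, ← mul_assoc, P.orth i j (Ne.symm hj), zero_mul, zero_mul]

lemma norm_pinch_le (x : Op H) : ‖P.pinch x‖ ≤ ‖x‖ := by
  refine ContinuousLinearMap.opNorm_le_bound _ (norm_nonneg x) fun v => ?_
  refine (sq_le_sq₀ (norm_nonneg _) (by positivity)).1 ?_
  rw [← P.sum_apply_sq (P.pinch x v), mul_pow, ← P.sum_apply_sq v, Finset.mul_sum]
  refine Finset.sum_le_sum fun i _ => ?_
  have e : P.p i (P.pinch x v) = P.p i (x (P.p i v)) := DFunLike.congr_fun (P.p_mul_pinch i x) v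
  rw [e, ← mul_pow]
  refine pow_le_pow_left₀ (norm_nonneg _) ?_ 2
  refine ((P.p i).le_opNorm _).trans
    ((mul_le_of_le_one_left (norm_nonneg _) (P.proj i).norm_le).trans ?_)
  exact x.le_opNorm _

lemma pinch_sum {ι : Type*} (s : Finset ι) (f : ι → Op H) :
    P.pinch (∑ j ∈ s, f j) = ∑ j ∈ s, P.pinch (f j) := by
  simp only [pinch, Finset.mul_sum, Finset.sum_mul]
  exact Finset.sum_comm

lemma pinch_star (x : Op H) : P.pinch (star x) = star (P.pinch x) := by
  simp only [pinch, star_sum, star_mul, P.star_p, mul_assoc]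

lemma refines_refl : P.Refines P := fun j => ⟨j, P.mul_self j⟩

variable {P Q}

lemma Refines.trans {R : Part S} (h : R.Refines Q) (h' : Q.Refines P) : R.Refines P := fun j => by
  obtain ⟨k, hk⟩ := h j
  obtain ⟨i, hi⟩ := h' k
  exact ⟨i, by rw [← hk, ← mul_assoc, hi]⟩

lemma Refines.pinch_pinch (h : Q.Refines P) (x : Op H) : Q.pinch (P.pinch x) = Q.pinch x := by
  refine Finset.sum_congr rfl fun j _ => ?_
  obtain ⟨i, hi⟩ := h j
  have hi' : Q.p j * P.p i = Q.p j := by rw [Q.comm_A j (P.mem i), hi]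
  rw [pinch, Finset.mul_sum, Finset.sum_mul, Finset.sum_eq_single i (fun k _ hk => ?_) (by simp)]
  · calc Q.p j * (P.p i * x * P.p i) * Q.p j = Q.p j * P.p i * x * (P.p i * Q.p j) := by
          simp only [mul_assoc]
      _ = _ := by rw [hi', hi]
  · have h0 : Q.p j * P.p k = 0 := by
      rw [← hi', mul_assoc, P.orth i k (Ne.symm hk), mul_zero]
    simp only [← mul_assoc, h0, zero_mul]

/-- Pinchings by coarser partitions fix finer pinchings. -/
lemma Refines.pinch_coarse (h : Q.Refines P) (x : Op H) : P.pinch (Q.pinch x) = Q.pinch x := by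
  rw [pinch, pinch, Finset.sum_congr rfl fun i _ => by rw [Finset.mul_sum, Finset.sum_mul],
    Finset.sum_comm]
  refine Finset.sum_congr rfl fun j _ => ?_
  obtain ⟨i, hi⟩ := h j
  rw [Finset.sum_eq_single i (fun k _ hk => ?_) (by simp)]
  · have hi' : Q.p j * P.p i = Q.p j := by rw [Q.comm_A j (P.mem i), hi]
    simp only [← mul_assoc, hi]
    rw [mul_assoc _ (Q.p j) (P.p i), hi']
  · have h0 : P.p k * Q.p j = 0 := by rw [← hi, ← mul_assoc, P.orth k i hk, zero_mul]
    simp only [← mul_assoc, h0, zero_mul]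

variable (P Q)

/-- The common refinement of two partitions. -/
def inter (P Q : Part S) : Part S where
  n := P.n * Q.n
  p k := P.p (finProdFinEquiv.symm k).1 * Q.p (finProdFinEquiv.symm k).2
  mem _ := mul_mem (P.mem _) (Q.mem _)
  proj _ := (P.proj _).mul (Q.proj _) (P.comm_A _ (Q.mem _))
  orth k l hkl := by
    have hne : finProdFinEquiv.symm k ≠ finProdFinEquiv.symm l :=
      finProdFinEquiv.symm.injective.ne hkl
    generalize finProdFinEquiv.symm k = a at hne ⊢
    generalize finProdFinEquiv.symm l = b at hne ⊢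
    calc P.p a.1 * Q.p a.2 * (P.p b.1 * Q.p b.2) = P.p a.1 * (Q.p a.2 * P.p b.1) * Q.p b.2 := by
          simp only [mul_assoc]
      _ = P.p a.1 * P.p b.1 * (Q.p a.2 * Q.p b.2) := by
          rw [Q.comm_A _ (P.mem _)]
          simp only [mul_assoc]
      _ = 0 := by
          by_cases h1 : a.1 = b.1
          · rw [Q.orth _ _ fun h2 => hne (Prod.ext h1 h2), mul_zero]
          · rw [P.orth _ _ h1, zero_mul]
  sum_eq := by
    rw [← finProdFinEquiv.sum_comp, Fintype.sum_prod_type]
    simp only [Equiv.symm_apply_apply, ← Finset.mul_sum, Q.sum_eq, mul_one, P.sum_eq]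

lemma inter_refines_left (P Q : Part S) : (P.inter Q).Refines P := fun k =>
  ⟨(finProdFinEquiv.symm k).1, by simp only [inter]; rw [← mul_assoc, P.mul_self]⟩

lemma inter_refines_right (P Q : Part S) : (P.inter Q).Refines Q := fun k =>
  ⟨(finProdFinEquiv.symm k).2, by
    simp only [inter]
    rw [← mul_assoc, Q.comm_A _ (P.mem _), mul_assoc, Q.mul_self]⟩

/-- The partition with one piece. -/
def one (S : Masa H) : Part S where
  n := 1
  p _ := 1
  mem _ := one_mem _
  proj _ := IsStarProjection.one _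
  orth i j h := absurd (Subsingleton.elim i j) h
  sum_eq := by simp

/-- The partition by a projection and its complement. -/
def pair (S : Masa H) {e : Op H} (he : e ∈ S.A) (hp : IsStarProjection e) : Part S where
  n := 2
  p := ![e, 1 - e]
  mem := Fin.forall_fin_two.2 ⟨he, sub_mem (one_mem _) he⟩
  proj := Fin.forall_fin_two.2 ⟨hp, hp.one_sub⟩
  orth i j h := by
    fin_cases i <;> fin_cases j <;>
      simp [mul_sub, sub_mul, hp.isIdempotentElem.eq] at h ⊢
  sum_eq := by simp

variable {P Q}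

lemma Refines.commute_pinch {e : Op H} {he : e ∈ S.A} {hp : IsStarProjection e}
    (h : Q.Refines (pair S he hp)) (x : Op H) : Commute e (Q.pinch x) := by
  refine Commute.sum_right _ _ _ fun j _ => ?_
  obtain ⟨i, hi⟩ := h j
  rcases (Fin.exists_fin_two (p := fun l : Fin 2 => ![e, 1 - e] l * Q.p j = Q.p j)).1 ⟨i, hi⟩
    with hj | hj <;> simp at hj
  · have hj' : Q.p j * e = Q.p j := by rw [Q.comm_A j he, hj]
    show e * (Q.p j * x * Q.p j) = Q.p j * x * Q.p j * e
    rw [← mul_assoc, ← mul_assoc, hj, mul_assoc _ _ e, hj']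
  · rw [sub_mul, one_mul, sub_eq_self] at hj
    have hj' : Q.p j * e = 0 := by rw [Q.comm_A j he, hj]
    show e * (Q.p j * x * Q.p j) = Q.p j * x * Q.p j * e
    rw [← mul_assoc, ← mul_assoc, hj, zero_mul, zero_mul, mul_assoc _ _ e, hj', mul_zero]

end Part

namespace Masa

variable (S)

/-- The filter of finer and finer partitions. -/
def fine : Filter (Part S) := ⨅ P₀ : Part S, 𝓟 {P | P.Refines P₀}

instance : S.fine.NeBot := by
  have : Nonempty (Part S) := ⟨Part.one S⟩
  refine iInf_neBot_of_directed (fun P Q => ⟨P.inter Q, ?_, ?_⟩)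
    fun P => principal_neBot_iff.2 ⟨P, P.refines_refl⟩
  · exact principal_mono.2 fun R hR => hR.trans (Part.inter_refines_left P Q)
  · exact principal_mono.2 fun R hR => hR.trans (Part.inter_refines_right P Q)

/-- An ultrafilter of finer and finer partitions. -/
def ult : Ultrafilter (Part S) := Ultrafilter.of S.fine

lemma eventually_refines (P₀ : Part S) :
    ∀ᶠ P in (S.ult : Filter (Part S)), P.Refines P₀ :=
  Ultrafilter.of_le S.fine (mem_iInf_of_mem P₀ (mem_principal_self _))

/-- `T` is the weak limit of the pinchings of `x`. -/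
def WLim (x T : Op H) : Prop :=
  ∀ v w : H, Tendsto (fun P : Part S => ⟪v, P.pinch x w⟫_ℂ) (S.ult : Filter (Part S))
    (𝓝 ⟪v, T w⟫_ℂ)

theorem exists_wLim {x : Op H} (hM : x ∈ S.M) (hx : IsSelfAdjoint x) :
    ∃ T, T ∈ S.A ∧ IsSelfAdjoint T ∧ ‖T‖ ≤ ‖x‖ ∧ S.WLim x T := by
  have hsym : ∀ (P : Part S) v w, ⟪P.pinch x v, w⟫_ℂ = ⟪v, P.pinch x w⟫_ℂ := fun P => by
    have : IsSelfAdjoint (P.pinch x) := by rw [IsSelfAdjoint, ← P.pinch_star, hx.star_eq]
    exact this.isSymmetric
  have hex : ∀ v w : H, ∃ l : ℂ, ‖l‖ ≤ ‖x‖ * ‖v‖ * ‖w‖ ∧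
      Tendsto (fun P : Part S => ⟪P.pinch x v, w⟫_ℂ) (S.ult : Filter (Part S)) (𝓝 l) := by
    intro v w
    obtain ⟨l, hl, hlim⟩ := (isCompact_closedBall (0 : ℂ) (‖x‖ * ‖v‖ * ‖w‖)).ultrafilter_le_nhds
      (S.ult.map fun P : Part S => ⟪P.pinch x v, w⟫_ℂ)
      (le_principal_iff.2 (mem_map.2 (univ_mem' fun P => mem_closedBall_zero_iff.2
        ((norm_inner_le_norm _ _).trans (mul_le_mul_of_nonneg_right
          (((P.pinch x).le_opNorm v).trans
            (mul_le_mul_of_nonneg_right (P.norm_pinch_le x) (norm_nonneg _))) (norm_nonneg _))))))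
    exact ⟨l, mem_closedBall_zero_iff.1 hl, hlim⟩
  choose L hLn hL using hex
  have hu : ∀ {v w : H} {l : ℂ},
      Tendsto (fun P : Part S => ⟪P.pinch x v, w⟫_ℂ) (S.ult : Filter (Part S)) (𝓝 l) → L v w = l :=
    fun h => tendsto_nhds_unique (hL _ _) h
  let B := LinearMap.mkContinuous₂ (LinearMap.mk₂'ₛₗ (starRingEnd ℂ) (RingHom.id ℂ) L
    (fun v v' w => hu (((hL v w).add (hL v' w)).congr fun P => by rw [map_add, inner_add_left]))
    (fun c v w => hu (((hL v w).const_mul (starRingEnd ℂ c)).congr fun P => by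
      rw [map_smul, inner_smul_left]))
    (fun v w w' => hu (((hL v w).add (hL v w')).congr fun P => by rw [inner_add_right]))
    (fun c v w => hu (((hL v w).const_mul c).congr fun P => by rw [inner_smul_right])))
    ‖x‖ hLn
  set T := InnerProductSpace.continuousLinearMapOfBilin B
  have hT : ∀ v w, ⟪T v, w⟫_ℂ = L v w := fun v w =>
    InnerProductSpace.continuousLinearMapOfBilin_apply B v w
  have hTs : ∀ v w, ⟪T v, w⟫_ℂ = ⟪v, T w⟫_ℂ := by
    intro v w
    rw [← inner_conj_symm v (T w), hT, hT]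
    refine hu (((Complex.continuous_conj.tendsto _).comp (hL w v)).congr fun P => ?_)
    rw [Function.comp_apply, inner_conj_symm, hsym]
  have hcomm : ∀ b : Op H, (∀ᶠ P in (S.ult : Filter (Part S)), Commute b (P.pinch x)) →
      Commute b T := fun b hb => by
    refine ContinuousLinearMap.ext fun v => ext_inner_right ℂ fun w => ?_
    rw [mul_apply_eq_comp, mul_apply_eq_comp, ← ContinuousLinearMap.adjoint_inner_right, hT, hT]
    refine (hu ((hL v _).congr' ?_)).symm
    filter_upwards [hb] with P hP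
    rw [ContinuousLinearMap.adjoint_inner_right, ← mul_apply_eq_comp, hP.eq, mul_apply_eq_comp]
  refine ⟨T, S.mem_A_of_commute_proj ?_ fun e he hep => hcomm e ?_,
    ContinuousLinearMap.isSelfAdjoint_iff_isSymmetric.2 hTs, ?_, fun v w => ?_⟩
  · exact S.mem_M_iff.2 fun y hy =>
      (hcomm y (Eventually.of_forall fun P => S.commute_of_mem (P.pinch_mem hM) hy)).eq
  · exact (S.eventually_refines (Part.pair S he hep)).mono fun P hP => hP.commute_pinch x
  · refine ContinuousLinearMap.opNorm_le_bound _ (norm_nonneg _) fun v => ?_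
    have h1 := hLn v (T v)
    rw [← hT, inner_self_eq_norm_sq_to_K] at h1
    simp only [Complex.coe_algebraMap, norm_pow, Complex.norm_real, norm_norm] at h1
    rcases eq_or_lt_of_le (norm_nonneg (T v)) with h0 | h0
    · rw [← h0]; positivity
    · exact le_of_mul_le_mul_right (by rw [← sq]; exact h1) h0
  · rw [← hTs, hT]
    exact (hL v w).congr fun P => hsym P v w

end Masa

lemma cut_le {h : Op H} (h0 : 0 ≤ h) {t : ℝ} (ht : 0 ≤ t) : t • cut h t ≤ h := by
  have e := Tr.cut_le_hinge h0.isSelfAdjoint (le_refl (0 : ℝ) |>.trans ht) (t := t)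
  rw [sub_zero] at e
  refine e.trans (le_of_eq ?_)
  rw [hinge, cfc_congr (g := fun z : ℝ => z) fun z hz => ?_, cfc_id' ℝ h]
  have : 0 ≤ z := spectrum_nonneg_of_nonneg h0 hz
  simp [this]

lemma norm_sq_proj {e : Op H} (he : IsStarProjection e) (v : H) :
    ‖e v‖ ^ 2 = RCLike.re ⟪v, e v⟫_ℂ := by
  rw [← inner_self_eq_norm_sq (𝕜 := ℂ), ← ContinuousLinearMap.adjoint_inner_right,
    ← ContinuousLinearMap.star_eq_adjoint, he.isSelfAdjoint.star_eq, ← mul_apply_eq_comp,
    he.isIdempotentElem.eq]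

lemma re_inner_mono {a b : Op H} (h : a ≤ b) (v : H) :
    RCLike.re ⟪v, a v⟫_ℂ ≤ RCLike.re ⟪v, b v⟫_ℂ := by
  have := ((ContinuousLinearMap.nonneg_iff_isPositive _).1 (sub_nonneg.2 h)).inner_nonneg_right v
  rw [sub_apply, inner_sub_right, Complex.nonneg_iff, Complex.sub_re] at this
  simpa using this.1

lemma re_inner_star_mul (T : Op H) (v : H) :
    RCLike.re ⟪v, (star T * T) v⟫_ℂ = ‖T v‖ ^ 2 := by
  rw [mul_apply_eq_comp, ContinuousLinearMap.star_eq_adjoint,
    ContinuousLinearMap.adjoint_inner_right, inner_self_eq_norm_sq]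

/-- Below a cut of `h ≥ T* T`, the operator `T` is small. -/
lemma norm_mul_cut_compl {h T : Op H} (h0 : 0 ≤ h) (hT : star T * T ≤ h) {t : ℝ} (ht : 0 ≤ t) :
    ‖T * (1 - cut h t)‖ ^ 2 ≤ t := by
  set c := 1 - cut h t
  have hc : IsStarProjection c := (Tr.isStarProjection_cut h t).one_sub
  have h1 : c * h * c ≤ t • c := by
    have := Tr.le_of_cut h0.isSelfAdjoint t
    change c * (h - t • (1 : Op H)) * c ≤ 0 at this
    rwa [mul_sub c, sub_mul (c * h), mul_smul_comm, mul_one, smul_mul_assoc,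
      hc.isIdempotentElem.eq, sub_nonpos] at this
  have h2 : star (T * c) * (T * c) ≤ algebraMap ℝ (Op H) t := by
    rw [star_mul, hc.isSelfAdjoint.star_eq, Algebra.algebraMap_eq_smul_one,
      show c * star T * (T * c) = c * (star T * T) * c by simp only [mul_assoc]]
    refine (?_ : _ ≤ c * h * c).trans (h1.trans (smul_le_smul_of_nonneg_left hc.le_one ht))
    simpa [hc.isSelfAdjoint.star_eq] using star_left_conjugate_le_conjugate hT c
  rw [sq, ← CStarRing.norm_star_mul_self]
  exact (CStarAlgebra.norm_le_iff_le_algebraMap _ ht (star_mul_self_nonneg _)).2 h2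

end Vale.Agent.P078.Sing
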