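import Vale.Agent.P078.Sing.Part

/-!
# Staircase approximation by cuts
-/

open scoped ComplexOrder InnerProductSpace
open Vale.Agent.P078.Tr (cut rangeProj hinge)

noncomputable section

namespace Vale.Agent.P078.Sing

universe u

variable {H : Type u} [NormedAddCommGroup H] [InnerProductSpace ℂ H] [CompleteSpace H]

/-- The `k`-th slice of `b`. -/
def slice (b : Op H) (d : ℝ) (k : ℕ) : Op H :=
  cfc (fun z : ℝ => min (max (z - k * d) 0) d) b

lemma slice_commute_cut (b : Op H) (d : ℝ) (k : ℕ) (t : ℝ) :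
    Commute (slice b d k) (cut b t) :=
  Tr.commute_cut t ((Commute.refl b).cfc_real _).symm

lemma slice_isSelfAdjoint (b : Op H) (d : ℝ) (k : ℕ) : IsSelfAdjoint (slice b d k) :=
  cfc_predicate _ _

lemma sum_min_max (z d : ℝ) (hd : 0 ≤ d) :
    ∀ n : ℕ, 0 ≤ z → ∑ k ∈ Finset.range n, min (max (z - k * d) 0) d = min z (n * d) := by
  intro n hz
  induction n with
  | zero => simp [hz]
  | succ n ih =>
    rw [Finset.sum_range_succ, ih]
    push_cast
    rcases le_total z (n * d) with h | h
    · rw [min_eq_left h, max_eq_right (by linarith), min_eq_left hd, add_zero,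
        min_eq_left (by linarith)]
    · rw [min_eq_right h, max_eq_left (by linarith)]
      rcases le_total (z - n * d) d with h' | h'
      · rw [min_eq_left h', min_eq_left (by linarith)]; ring
      · rw [min_eq_right h', min_eq_right (by linarith)]; ring

lemma sum_slice {b : Op H} (hb : IsSelfAdjoint b) {d : ℝ} (hd : 0 ≤ d) (n : ℕ)
    (hs : ∀ z ∈ spectrum ℝ b, 0 ≤ z ∧ z ≤ n * d) :
    ∑ k ∈ Finset.range n, slice b d k = b := by
  simp only [slice]
  rw [← cfc_sum (fun (k : ℕ) (z : ℝ) => min (max (z - k * d) 0) d) b (Finset.range n)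
    (fun i _ => by fun_prop)]
  conv_rhs => rw [← cfc_id' ℝ b]
  refine cfc_congr fun z hz => ?_
  rw [Finset.sum_apply, sum_min_max z d hd n (hs z hz).1, min_eq_left (hs z hz).2]

/-- Upper step. -/
lemma slice_le_cut {b : Op H} (hb : IsSelfAdjoint b) {d : ℝ} (hd : 0 < d) (k : ℕ) :
    slice b d k ≤ d • cut b (k * d) := by
  set c := cut b (k * d)
  have hP := Tr.isStarProjection_cut b (k * d)
  have he : slice b d k = hinge b (k * d) *
      cfc (fun z : ℝ => d / max (max (z - k * d) 0) d) b := by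
    simp only [slice, hinge]
    have hcont : Continuous fun z : ℝ => d / max (max (z - k * d) 0) d :=
      Continuous.div (by fun_prop) (by fun_prop) fun z => (lt_max_of_lt_right hd).ne'
    rw [← cfc_mul (fun s : ℝ => max (s - k * d) 0) _ b (by fun_prop) hcont.continuousOn]
    refine cfc_congr fun z _ => ?_
    rcases le_total (max (z - k * d) 0) d with h | h
    · rw [min_eq_left h, max_eq_right h, div_self hd.ne', mul_one]
    · rw [min_eq_right h, max_eq_left h, mul_div_cancel₀ _ (lt_of_lt_of_le hd h).ne']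
  have h1 : c * slice b d k = slice b d k := by
    rw [he, ← mul_assoc, Tr.cut_mul_hinge]
  have h2 : slice b d k ≤ d • (1 : Op H) := by
    rw [← Algebra.algebraMap_eq_smul_one]
    exact cfc_le_algebraMap _ _ _ fun z _ => min_le_right _ _
  have h3 := star_left_conjugate_le_conjugate h2 c
  rw [hP.isSelfAdjoint.star_eq, h1, slice_commute_cut b d k (k * d), h1, mul_smul_comm, mul_one,
    smul_mul_assoc, hP.isIdempotentElem.eq] at h3
  exact h3

/-- Lower step. -/
lemma cut_le_slice {b : Op H} (hb : IsSelfAdjoint b) {d : ℝ} (hd : 0 ≤ d) (k : ℕ) :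
    d • cut b ((k + 1) * d) ≤ slice b d k := by
  set c := cut b ((k + 1) * d)
  have hP := Tr.isStarProjection_cut b ((k + 1) * d)
  have hr : (d • (1 : Op H) - slice b d k) * hinge b ((k + 1) * d) = 0 := by
    simp only [slice, hinge]
    rw [← Algebra.algebraMap_eq_smul_one, ← cfc_const d b, ← cfc_sub _ _ b, ← cfc_mul _ _ b,
      ← cfc_zero ℝ b]
    refine cfc_congr fun z _ => ?_
    rcases le_total z ((k + 1) * d) with h | h
    · simp [h]
    · rw [max_eq_left (show 0 ≤ z - k * d by nlinarith), min_eq_right (by linarith)]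
      simp
  have hr' := Tr.mul_rangeProj_eq_zero hr
  rw [sub_mul, smul_mul_assoc, one_mul, sub_eq_zero] at hr'
  change d • c = slice b d k * c at hr'
  have h0 : 0 ≤ slice b d k := cfc_nonneg fun z _ => le_min (le_max_right _ _) hd
  have h1 := star_left_conjugate_nonneg h0 (1 - c)
  rw [hP.one_sub.isSelfAdjoint.star_eq, mul_assoc,
    ((Commute.one_right _).sub_right (slice_commute_cut b d k _)).eq, ← mul_assoc,
    hP.one_sub.isIdempotentElem.eq, sub_mul, one_mul, ← (slice_commute_cut b d k _).eq, ← hr',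
    sub_nonneg] at h1
  exact h1

/-- A positive contraction is within `1 / n` above a combination of its cuts. -/
theorem stair {b : Op H} (hb0 : 0 ≤ b) (hb1 : ‖b‖ ≤ 1) {n : ℕ} (hn : 0 < n) :
    (1 / (n : ℝ)) • (∑ k ∈ Finset.range n, cut b ((k + 1) * (1 / (n : ℝ)))) ≤ b ∧
      b ≤ (1 / (n : ℝ)) • (∑ k ∈ Finset.range n, cut b ((k + 1) * (1 / (n : ℝ)))) +
        (1 / (n : ℝ)) • (1 : Op H) := by
  set d := 1 / (n : ℝ) with hd
  have hd0 : 0 < d := by positivity
  have hs : ∀ z ∈ spectrum ℝ b, 0 ≤ z ∧ z ≤ n * d := fun z hz => by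
    refine ⟨spectrum_nonneg_of_nonneg hb0 hz, ?_⟩
    rw [hd, mul_one_div, div_self (by positivity)]
    exact (le_algebraMap_iff_spectrum_le hb0.isSelfAdjoint).1
      ((CStarAlgebra.norm_le_iff_le_algebraMap _ zero_le_one hb0).1 hb1) z hz
  have hsum := sum_slice hb0.isSelfAdjoint hd0.le n hs
  constructor
  · rw [Finset.smul_sum]
    refine (Finset.sum_le_sum fun k _ => ?_).trans hsum.le
    exact cut_le_slice hb0.isSelfAdjoint hd0.le k
  · conv_lhs => rw [← hsum]
    refine (Finset.sum_le_sum fun k _ => slice_le_cut hb0.isSelfAdjoint hd0 k).trans ?_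
    obtain ⟨m, rfl⟩ : ∃ m, n = m + 1 := ⟨n - 1, by omega⟩
    rw [Finset.sum_range_succ' , Finset.smul_sum]
    refine add_le_add ?_ (smul_le_smul_of_nonneg_left (Tr.isStarProjection_cut b _).le_one hd0.le)
    rw [Finset.sum_range_succ]
    refine le_add_of_le_of_nonneg (le_of_eq (Finset.sum_congr rfl fun k _ => by push_cast; rfl))
      (smul_nonneg hd0.le (Tr.isStarProjection_cut b _).nonneg)

end Vale.Agent.P078.Sing
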